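import Vale.Agent.P221.H460.C2

/-!
# P221 (helper460): normalization, the filtered system

* `eq_zero_of_comb` : separatedness;
* `comb_mem` : `∑ g_i γ_i` has slope filtration `≥ s` if `γ_i` has filtration `≥ s - a_i`, and the
  leading terms are the ones of the coordinates of `γ_i`;
* `fsX` : **the filtered system**.
-/

open MvPolynomial

set_option linter.unusedSectionVars false

namespace Vale.Agent.P221.H460

open Vale.Agent.P221.T Vale.Agent.P221.T.H746

variable {p : ℕ} [hp : Fact p.Prime] {n : ℕ}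
  {ld : Lead p n} {S : Src p n} {O : OpAlg ld S}
  {Y : Sys S} {M : Type} [AddCommGroup M] [Module (KK p) M] {Z : Ev O Y M} {X : OpX O}
  {r : ℕ} {e : Fin r → ℤ} (G : Gens Z X r e)

/-! ### separatedness -/

/-- monomials of bounded degree have bounded length -/
theorem degree_le_of_weight {D : ℤ} {E : ℕ →₀ ℕ}
    (h : Finsupp.weight (fun i => sV p (i + 1)) E = D) : (E.degree : ℤ) ≤ D := by
  rw [← h]
  clear h
  induction E using Finsupp.induction_linear with
  | zero => rw [map_zero, map_zero]; simp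
  | add E E' h h' =>
    rw [map_add, map_add]
    push_cast
    linarith
  | single i m =>
    rw [Finsupp.weight_single, Finsupp.degree_single, nsmul_eq_mul]
    have := sV_pos p i
    nlinarith [Int.natCast_nonneg m]

/-- high filtration in bounded degree means divisible by `p` -/
theorem exists_div_pow {D t : ℤ} {N : ℕ} {h : KK p} (hD : HK p D h) (ht : h ∈ Ip p t)
    (hN : D + N ≤ t) : ∃ g : KK p, HK p D g ∧ h = (p ^ N : ℕ) • g := by
  classical
  have h1 : ∀ E, (p : ℤ_[p]) ^ N ∣ coeff E h := by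
    intro E
    by_cases h0 : coeff E h = 0
    · rw [h0]
      exact dvd_zero _
    · have h2 := degree_le_of_weight (hD h0)
      refine (pow_dvd_pow _ ?_).trans ((mem_Ip_iff p).1 ht E)
      omega
  choose c hc using h1
  have hp0 : (p : ℤ_[p]) ≠ 0 := by exact_mod_cast hp.out.ne_zero
  refine ⟨∑ E ∈ h.support, monomial E (c E), ?_, ?_⟩
  · refine (weightedHomogeneousSubmodule ℤ_[p] (fun i : ℕ => sV p (i + 1)) D).sum_mem
      fun E hE => ?_
    exact HK_monomial _ (hD (mem_support_iff.1 hE))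
  · conv_lhs => rw [h.as_sum]
    rw [Finset.smul_sum]
    refine Finset.sum_congr rfl fun E _ => ?_
    rw [← map_nsmul, hc E, nsmul_eq_mul]
    push_cast
    rfl

/-- the value of the coordinates modulo `p ^ N` -/
theorem cf_dvd_of_comb {K : ℤ} {d : Y.A K}
    (h : ∀ m : ℤ, ∃ γ : ∀ i, S.E (K - e i), (∀ i, γ i ∈ S.F (m - slope p n (e i)) _) ∧
      d = comb G K γ) (i : Fin r) (E : ℕ →₀ ℕ) (N : ℕ) :
    ∃ g : MvPolynomial (Fin n) ℤ_[p], cf G K d i E = (p ^ N : ℕ) • g := by
  classical
  -- a bound for the degrees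
  obtain ⟨m, hm⟩ : ∃ m : ℤ, ∀ i, K - e i + dT p E + N ≤ m - slope p n (e i) := by
    refine ⟨∑ i, |K - e i + dT p E + N + slope p n (e i)|, fun i => ?_⟩
    have h1 : |K - e i + dT p E + N + slope p n (e i)| ≤
        ∑ i, |K - e i + dT p E + N + slope p n (e i)| :=
      Finset.single_le_sum (f := fun i => |K - e i + dT p E + N + slope p n (e i)|)
        (fun _ _ => abs_nonneg _) (Finset.mem_univ i)
    have h2 := le_abs_self (K - e i + dT p E + N + slope p n (e i))
    linarith
  obtain ⟨γ, hγ, hd⟩ := h m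
  have h1 : ∀ (i : Fin r) (E' : ℕ →₀ ℕ), ∃ g : KK p, HK p (K - e i + dT p E') g ∧
      (dT p E' ≤ dT p E → coeff 0 (O.T _ (γ i) (monomial E' 1)) = (p ^ N : ℕ) • g) := by
    intro i E'
    by_cases hE : dT p E' ≤ dT p E
    · obtain ⟨g, hg, hg'⟩ := exists_div_pow (N := N) (HK_coord (O := O) (γ i) E')
        (O.T_mem _ _ (γ i) (hγ i) E' 0) (by have := hm i; linarith)
      exact ⟨g, hg, fun _ => hg'⟩
    · exact ⟨0, HK_zero _, fun h => absurd h hE⟩
  choose g hg hg' using h1
  choose γ' _ hγ' using fun i => X.ex (K - e i) 0 (g i) (hg i)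
    (fun E => Ip_of_nonpos p le_rfl _)
  obtain ⟨δ, hδ, hd'⟩ := exists_cf G K (comb G K γ')
  refine ⟨cf G K (comb G K γ') i E, ?_⟩
  -- compare
  have h2 : Hom p e K fun i E => (p ^ N : ℕ) • cf G K (comb G K γ') i E := fun i E => by
    rw [map_nsmul]
    exact (weightedHomogeneousSubmodule ℤ_[p] (fun i : ℕ => sV p (i + 1)) _).nsmul_mem
      (cf_hom G K _ i E) _
  refine cf_eq_low G (c := dT p E + 1) h2 (γ := fun i => (p ^ N : ℕ) • δ i) (fun i E' => ?_)
    (fun E' hE' => ?_) i E (by omega)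
  · rw [map_nsmul (O.T _), LinearMap.smul_apply, coeff_smul, hδ, map_nsmul]
  · rw [comb_nsmul, ← hd', ← comb_nsmul, hd]
    refine c_comb_low G (c := dT p E + 1) (fun i E'' hE'' => ?_) E' hE'
    rw [hg' i E'' (by omega), map_nsmul (O.T _), LinearMap.smul_apply, coeff_smul, hγ']

/-- **separatedness** -/
theorem eq_zero_of_comb {K : ℤ} {d : Y.A K}
    (h : ∀ m : ℤ, ∃ γ : ∀ i, S.E (K - e i), (∀ i, γ i ∈ S.F (m - slope p n (e i)) _) ∧
      d = comb G K γ) : d = 0 := by
  apply eq_of_cf G
  intro i E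
  rw [cf_zero]
  ext E'
  rw [coeff_zero]
  by_contra hne
  have h1 : ∀ N : ℕ, (p : ℤ_[p]) ^ N ∣ coeff E' (cf G K d i E) := by
    intro N
    obtain ⟨g, hg⟩ := cf_dvd_of_comb G h i E N
    rw [hg, coeff_smul, nsmul_eq_mul]
    push_cast
    exact Dvd.intro _ rfl
  have h2 : ¬ IsUnit (p : ℤ_[p]) := PadicInt.p_nonunit
  obtain ⟨N, hN⟩ := FiniteMultiplicity.of_not_isUnit h2 hne
  exact hN (h1 _)

/-! ### normalization -/

/-- **normalization** -/
theorem comb_mem {K s : ℤ} (γ : ∀ i, S.E (K - e i))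
    (hγ : ∀ i, γ i ∈ S.F (s - slope p n (e i)) _) (i : Fin r) (E : ℕ →₀ ℕ) :
    RN p n (cf G K (comb G K γ) i E) ∈ Ip p (s - slope p n (e i)) ∧
      ld.L (s - slope p n (e i)) (RN p n (cf G K (comb G K γ) i E)) =
        ld.L (s - slope p n (e i)) (coeff 0 (O.T _ (γ i) (monomial E 1))) := by
  classical
  -- iterate the splitting
  let st : ℕ → Type := fun l => {γ : ∀ i, S.E (K - e i) //
    ∀ i, γ i ∈ S.F (s + l - slope p n (e i)) _}
  have step : ∀ (l : ℕ) (γ : st l), ∃ (u : Fin r → (ℕ →₀ ℕ) → MvPolynomial (Fin n) ℤ_[p])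
      (ρ : st (l + 1)), Hom p e K u ∧ (∀ i E, RN p n (u i E) ∈ Ip p (s + l - slope p n (e i))) ∧
      (∀ i E, ld.L (s + l - slope p n (e i)) (RN p n (u i E)) =
        ld.L (s + l - slope p n (e i)) (coeff 0 (O.T _ (γ.1 i) (monomial E 1)))) ∧
      ∀ δ : ∀ i, S.E (K - e i), Has (O := O) K δ u → comb G K γ.1 = comb G K δ + comb G K ρ.1 := by
    rintro l ⟨γ, hγ⟩
    obtain ⟨u, ρ, h1, h2, h3, h4, h5⟩ := split G γ hγ
    exact ⟨u, ⟨ρ, fun i => by
      have := h4 i
      push_cast
      rwa [← add_assoc]⟩, h1, h2, h3, h5⟩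
  choose U P hU1 hU2 hU3 hU4 using step
  let R : ∀ l, st l := fun l => Nat.rec (motive := st) ⟨γ, fun i => by
    have := hγ i
    simpa using this⟩ (fun l x => P l x) l
  let u : ℕ → Fin r → (ℕ →₀ ℕ) → MvPolynomial (Fin n) ℤ_[p] := fun l => U l (R l)
  have hR : ∀ l, R (l + 1) = P l (R l) := fun l => rfl
  -- the sum
  choose v hv1 hv2 using fun (i : Fin r) (E : ℕ →₀ ℕ) =>
    exists_RN_sum p (K - e i + dT p E) (s - slope p n (e i)) (fun l => u l i E)
      (fun l => hU1 l (R l) i E) (fun l => by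
        have h1 := hU2 l (R l) i E
        have e1 : s - slope p n (e i) + l = s + l - slope p n (e i) := by ring
        rw [e1]
        exact h1)
  obtain ⟨δ, hδ⟩ := exists_has' (O := O) (X := X) hv1
  choose δu hδu using fun l => exists_has' (O := O) (X := X) (hU1 l (R l))
  have key : ∀ m : ℕ, comb G K γ = comb G K (fun i => ∑ l ∈ Finset.range m, δu l i) +
      comb G K (R m).1 := by
    intro m
    induction m with
    | zero =>
      have h1 : comb G K (fun i => ∑ l ∈ Finset.range 0, δu l i) = 0 := by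
        have h2 := comb_sub G (k := K) (fun i => (0 : S.E (K - e i))) (fun i => 0)
        rw [sub_self] at h2
        simp only [Finset.range_zero, Finset.sum_empty]
        rw [← h2]
        simp only [sub_self]
      rw [h1, zero_add]
      rfl
    | succ m ih =>
      have h1 := hU4 m (R m) (δu m) (hδu m)
      rw [ih, h1, ← hR, ← add_assoc, ← comb_add]
      congr 1
      refine congrArg _ (funext fun i => ?_)
      rw [Finset.sum_range_succ]
  have h0 : comb G K γ - comb G K δ = 0 := by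
    refine eq_zero_of_comb G fun m => ?_
    -- choose `l` with `m ≤ s + l`
    let l : ℕ := (m - s).toNat
    refine ⟨fun i => (∑ l ∈ Finset.range l, δu l i - δ i) + (R l).1 i, fun i => ?_, ?_⟩
    · have hml : m ≤ s + l := by
        have : (l : ℤ) = ((m - s).toNat : ℤ) := rfl
        omega
      rw [O.F_iff]
      have h1 : (∑ l ∈ Finset.range l, δu l i - δ i) ∈
          S.F (s + l - slope p n (e i)) (K - e i) := by
        refine mem_F_of_coord X fun E => ?_
        have h2 := hv2 i E l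
        rw [map_sub (O.T _), LinearMap.sub_apply, coeff_sub, map_sum, LinearMap.sum_apply,
          coeff_sum, hδ]
        rw [Finset.sum_congr rfl fun l _ => hδu l i E]
        rw [← neg_mem_iff, neg_sub]
        have e1 : s + l - slope p n (e i) = s - slope p n (e i) + l := by ring
        rw [e1]
        exact h2
      have h3 := AddSubgroup.add_mem _ h1 ((R l).2 i)
      rw [O.F_iff] at h3
      intro E E'
      exact Ip_mono p (by omega) (h3 E E')
    · rw [comb_add, comb_sub, key l]
      abel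
  rw [sub_eq_zero] at h0
  have h1 : ∀ i E, cf G K (comb G K γ) i E = v i E := fun i E => cf_eq G hv1 hδ h0 i E
  rw [h1]
  have h2 := hv2 i E 1
  rw [Finset.sum_range_one] at h2
  have h3 := hU2 0 (R 0) i E
  have h4 := hU3 0 (R 0) i E
  simp only [Nat.cast_zero, add_zero] at h3 h4
  have h3' : RN p n (u 0 i E) ∈ Ip p (s - slope p n (e i)) := h3
  have h4' : ld.L (s - slope p n (e i)) (RN p n (u 0 i E)) =
    ld.L (s - slope p n (e i)) (coeff 0 (O.T _ (γ i) (monomial E 1))) := h4
  have h5 : RN p n (v i E) = RN p n (u 0 i E) + (RN p n (v i E) - RN p n (u 0 i E)) := by ring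
  have h2' : RN p n (v i E) - RN p n (u 0 i E) ∈ Ip p (s - slope p n (e i) + 1) := by
    have e1 : s - slope p n (e i) + ((1 : ℕ) : ℤ) = s - slope p n (e i) + 1 := by norm_num
    rw [e1] at h2
    exact h2
  refine ⟨?_, ?_⟩
  · rw [h5]
    exact Ideal.add_mem _ h3' (Ip_mono p (by omega) h2')
  · rw [h5, lead_add_of_mem ld h3' h2', h4']

/-! ### the action -/

/-- **the coordinates of `a γ`** -/
theorem cf_act {k m k' s t : ℤ} (h : k + m = k') (a : Y.A k) (γ : S.E m)
    (ha : ∀ i E, RN p n (cf G k a i E) ∈ Ip p (s - slope p n (e i))) (hγ : γ ∈ S.F t m)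
    (i : Fin r) (E : ℕ →₀ ℕ) (W : Finset (ℕ →₀ ℕ))
    (hW : (O.T m γ (monomial E 1)).support ⊆ W) :
    RN p n (cf G k' (Y.act h a γ) i E) ∈ Ip p (s + t - slope p n (e i)) ∧
      ld.L (s + t - slope p n (e i)) (RN p n (cf G k' (Y.act h a γ) i E)) =
        ∑ E' ∈ W, ld.L t (coeff E' (O.T m γ (monomial E 1))) *
          ld.L (s - slope p n (e i)) (RN p n (cf G k a i E')) := by
  classical
  subst h
  obtain ⟨δ, hδ, hδF⟩ := exists_has (O := O) (X := X) (cf_hom G k a) ha
  have ha' := cf_spec G hδ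
  choose ε hε using fun i => X.comp (show k - e i + m = k + m - e i by ring) (δ i) γ
  have hε2 : ∀ i, ε i ∈ S.F (s + t - slope p n (e i)) _ := by
    intro i
    have h1 := F_comp (hε i) (hδF i) hγ
    have e1 : s - slope p n (e i) + t = s + t - slope p n (e i) := by ring
    rwa [e1] at h1
  have h1 : Y.act rfl a γ = comb G (k + m) ε := by
    apply Z.inj
    refine LinearMap.ext fun z => ?_
    rw [Z.act, LinearMap.comp_apply, ha', c_comb, c_comb]
    exact Finset.sum_congr rfl fun i _ => by rw [hε, LinearMap.comp_apply]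
  have h2 := comb_mem G ε hε2 i E
  rw [← h1] at h2
  refine ⟨h2.1, ?_⟩
  rw [h2.2]
  set g := O.T m γ (monomial E 1) with hg
  have h3 : g = ∑ E' ∈ W, coeff E' g • monomial E' 1 := by
    conv_lhs => rw [g.as_sum]
    rw [Finset.sum_subset hW (fun E' _ hE' => by
      rw [mem_support_iff, not_not] at hE'
      rw [hE', map_zero])]
    refine Finset.sum_congr rfl fun E' _ => ?_
    rw [smul_monomial, smul_eq_mul, _root_.mul_one]
  have h4 : coeff 0 (O.T _ (ε i) (monomial E 1)) =
      ∑ E' ∈ W, coeff E' g * RN p n (cf G k a i E') := by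
    rw [hε, LinearMap.comp_apply, ← hg]
    conv_lhs => rw [h3]
    rw [map_sum, coeff_sum]
    refine Finset.sum_congr rfl fun E' _ => ?_
    rw [map_smul, coeff_smul, smul_eq_mul, hδ]
  have h5 : ∀ E', coeff E' g ∈ Ip p t := fun E' => O.T_mem t m γ hγ E E'
  have e1 : s + t - slope p n (e i) = t + (s - slope p n (e i)) := by ring
  rw [h4, e1, lead_sum ld W _ fun E' _ => Ip_mul p (h5 E') (ha i E')]
  exact Finset.sum_congr rfl fun E' _ => lead_mul ld (h5 E') (ha i E')

theorem cf_x (l : ℕ) {s k k' : ℤ} (h : k + dd p n l = k') (a : Y.A k)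
    (ha : ∀ i E, RN p n (cf G k a i E) ∈ Ip p (s - slope p n (e i))) (i : Fin r) (E : ℕ →₀ ℕ) :
    RN p n (cf G k' (Y.act h a (S.x l)) i E) ∈ Ip p (s + 1 - slope p n (e i)) ∧
      ld.L (s + 1 - slope p n (e i)) (RN p n (cf G k' (Y.act h a (S.x l)) i E)) =
        ∑ b : Fin (n + 1), MvPolynomial.X b * ld.L (s - slope p n (e i)) (RN p n (cf G k a i
          (E + Finsupp.single (n + l - b) (p ^ (b : ℕ))))) := by
  classical
  have hx : S.x l ∈ S.F 1 _ := by
    rw [O.F_iff]
    intro E E'
    rw [O.T_x]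
    exact eta_mem O l E E'
  set W : Finset (ℕ →₀ ℕ) := (O.T _ (S.x l) (monomial E 1)).support ∪
    Finset.univ.image fun b : Fin (n + 1) => E + Finsupp.single (n + l - b) (p ^ (b : ℕ)) with hW
  obtain ⟨h3, h4⟩ := cf_act G h a (S.x l) ha hx i E W Finset.subset_union_left
  refine ⟨h3, ?_⟩
  rw [h4]
  simp only [O.T_x, eta_lead]
  simp only [Finset.sum_mul]
  rw [Finset.sum_comm]
  refine Finset.sum_congr rfl fun b _ => ?_
  rw [Finset.sum_eq_single (E + Finsupp.single (n + l - (b : ℕ)) (p ^ (b : ℕ)))]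
  · rw [if_pos rfl]
  · intro E' _ hE'
    rw [if_neg (fun h => hE' h.symm), zero_mul]
  · intro h
    exact absurd (Finset.mem_union_right _ (Finset.mem_image_of_mem _ (Finset.mem_univ b))) h

theorem cf_act0 {s k t m k' : ℤ} (h : k + m = k') (a : Y.A k) (γ : S.E m) {y : Fin r → RR p n}
    (ha : ∀ i E, RN p n (cf G k a i E) ∈ Ip p (s - slope p n (e i)))
    (hθ : (fun E' => fun i => ld.L (s - slope p n (e i)) (RN p n (cf G k a i E'))) = del y)
    (hγ : γ ∈ S.F t m) (i : Fin r) (E : ℕ →₀ ℕ) :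
    RN p n (cf G k' (Y.act h a γ) i E) ∈ Ip p (s + t - slope p n (e i)) ∧
      ld.L (s + t - slope p n (e i)) (RN p n (cf G k' (Y.act h a γ) i E)) =
        S.θ t m γ E * y i := by
  classical
  set W : Finset (ℕ →₀ ℕ) := insert 0 (O.T m γ (monomial E 1)).support with hW
  obtain ⟨h3, h4⟩ := cf_act G h a γ ha hγ i E W (Finset.subset_insert _ _)
  refine ⟨h3, ?_⟩
  rw [h4, Finset.sum_eq_single 0]
  · have h5 := congrFun (congrFun hθ 0) i
    simp only [del, Pi.single_eq_same] at h5
    rw [h5, O.θ_eq t m γ E hγ]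
  · intro E' _ hE'
    have h5 := congrFun (congrFun hθ E') i
    simp only [del, Pi.single_eq_of_ne hE', Pi.zero_apply] at h5
    rw [h5, mul_zero]
  · intro h
    exact absurd (Finset.mem_insert_self _ _) h

/-- values -/
theorem c_eq_cf {k : ℤ} (a : Y.A k) : Z.c k a 1 = ∑ i, Z.c (e i) (G.g i)
    (X.eta (RN p n (cf G k a i 0))) := by
  obtain ⟨γ, hγ, ha⟩ := exists_cf G k a
  have h1 : (1 : GG p) = monomial 0 1 := rfl
  conv_lhs => rw [ha]
  rw [c_comb]
  refine Finset.sum_congr rfl fun i _ => ?_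
  have h2 := (X.low _ 0 (γ i) (fun E hE => by
    have := dT_nonneg (p := p) E
    omega)).2 0 (by rw [dT_zero])
  rw [h1, h2, hγ]

/-- elements with given value -/
theorem exists_ev {k : ℤ} (x : Y.Pi k) (f : Fin r → MvPolynomial (Fin n) ℤ_[p])
    (hf : ∀ i, HK p (k - e i) (RN p n (f i)))
    (hx : Z.e k x = ∑ i, Z.c (e i) (G.g i) (X.eta (RN p n (f i)))) :
    ∃ a : Y.A k, Y.ev k a = x ∧ (∀ i, cf G k a i 0 = f i) ∧ ∀ i E, E ≠ 0 → cf G k a i E = 0 := by
  classical
  obtain ⟨a, ha⟩ := exists_of_cf (X := X) G (k := k)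
    (f := fun i E => if E = 0 then f i else 0) (fun i E => by
      dsimp only
      split_ifs with h
      · rw [h, dT_zero, add_zero]
        exact hf i
      · rw [map_zero]
        exact HK_zero _)
  refine ⟨a, Z.e_inj k ?_, fun i => by rw [ha, if_pos rfl], fun i E hE => by rw [ha, if_neg hE]⟩
  rw [Z.ev, c_eq_cf G, hx]
  refine Finset.sum_congr rfl fun i _ => ?_
  rw [ha, if_pos rfl]

/-- the coordinates in degree `0` are determined by the value -/
theorem cf_zero_unique {k : ℤ} {a b : Y.A k} (h : Y.ev k a = Y.ev k b) (i : Fin r) :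
    cf G k a i 0 = cf G k b i 0 := by
  obtain ⟨f₀, -, hu⟩ := G.bij k (Y.ev k a)
  have h1 : ∀ (b : Y.A k), Y.ev k a = Y.ev k b → (fun i => cf G k b i 0) = f₀ := by
    intro b hb
    refine hu _ ⟨fun i => HK_cast (by rw [dT_zero, add_zero]) (cf_hom G k b i 0), ?_⟩
    rw [hb, Z.ev, c_eq_cf G]
  exact congrFun ((h1 a rfl).trans (h1 b h).symm) i

/-- **the filtered system** -/
noncomputable def fsX (d : ℤ) : FS Y (grFree p n e fun i => slope p n (e i)) d where
  F s k :=
    { carrier := {a | ∀ i E, RN p n (cf G k a i E) ∈ Ip p (s - slope p n (e i))}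
      add_mem' := fun {a b} ha hb i E => by
        rw [cf_add, map_add]
        exact Ideal.add_mem _ (ha i E) (hb i E)
      zero_mem' := fun i E => by
        rw [cf_zero, map_zero]
        exact Ideal.zero_mem _
      neg_mem' := fun {a} ha i E => by
        rw [cf_neg, map_neg]
        exact Ideal.neg_mem_iff _ |>.2 (ha i E) }
  mono h a ha i E := Ip_mono p (by omega) (ha i E)
  exh {k} _ := by
    refine ⟨-∑ i, |slope p n (e i)|, ?_⟩
    rw [eq_top_iff]
    intro a _ i E
    refine Ip_of_nonpos p ?_ _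
    have h1 : |slope p n (e i)| ≤ ∑ i, |slope p n (e i)| :=
      Finset.single_le_sum (f := fun i => |slope p n (e i)|)
        (fun _ _ => abs_nonneg _) (Finset.mem_univ i)
    have h2 := neg_abs_le (slope p n (e i))
    linarith
  sep {k} _ a ha := by
    apply eq_of_cf G
    intro i E
    rw [cf_zero]
    apply RN_injective p
    rw [map_zero]
    refine eq_zero_of_Ip p fun t => ?_
    have h1 := ha (t + slope p n (e i)) i E
    rwa [add_sub_cancel_right] at h1
  cpl {k} _ s a ha := by
    have h1 : ∀ i E, ∃ g : MvPolynomial (Fin n) ℤ_[p], HK p (k - e i + dT p E) (RN p n g) ∧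
        ∀ m : ℕ, RN p n g - ∑ j ∈ Finset.range m, RN p n (cf G k (a j) i E) ∈
          Ip p (s - slope p n (e i) + m) :=
      fun i E => exists_RN_sum p (k - e i + dT p E) (s - slope p n (e i))
        (fun j => cf G k (a j) i E)
        (fun j => cf_hom G k (a j) i E) (fun j => by
          have h2 := ha j i E
          have e1 : s - slope p n (e i) + j = s + j - slope p n (e i) := by ring
          rw [e1]
          exact h2)
    choose g hg hg' using h1
    obtain ⟨b, hb⟩ := exists_of_cf (X := X) G hg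
    refine ⟨b, fun m i E => ?_⟩
    rw [cf_sub, cf_sum, hb, map_sub, map_sum]
    have e1 : s + m - slope p n (e i) = s - slope p n (e i) + m := by ring
    rw [e1]
    exact hg' i E m
  p_mem {s k a} ha i E := by
    rw [cf_nsmul, map_nsmul, nsmul_eq_mul]
    have h1 : ((p : ℕ) : KK p) ∈ Ip p 1 := by
      rw [Ip_one]
      exact p_mem_II p
    have h2 := Ip_mul p h1 (ha i E)
    have e1 : s + 1 - slope p n (e i) = 1 + (s - slope p n (e i)) := by ring
    rw [e1]
    exact h2
  θ s k a E i := ld.L (s - slope p n (e i)) (RN p n (cf G k a i E))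
  θ_add {s k a b} _ ha hb := by
    funext E i
    rw [cf_add, map_add, ld.add (ha i E) (hb i E)]
    rfl
  θ_mem {s k a} _ ha E i := by
    have h1 := lead_homog ld (ha i E) (cf_hom G k a i E)
    have e1 : k + dT p E - e i = k - e i + dT p E := by ring
    rw [e1]
    exact h1
  θ_surj {s k ζ} _ hζ := by
    choose f hf1 hf2 hf3 using fun i E => lead_surj ld (hζ E i)
    obtain ⟨a, ha⟩ := exists_of_cf (X := X) G (k := k) (f := f) (fun i E => HK_cast (by ring) (hf2 i E))
    refine ⟨a, fun i E => ?_, ?_⟩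
    · rw [ha]
      exact hf1 i E
    · funext E i
      rw [ha, hf3]
  θ_ker {s k a} _ ha := by
    constructor
    · intro h i E
      have h1 := lead_inj ld (ha i E) (congrFun (congrFun h E) i)
      have e1 : s + 1 - slope p n (e i) = s - slope p n (e i) + 1 := by ring
      rw [e1]
      exact h1
    · intro h
      funext E i
      have h1 := h i E
      have e1 : s + 1 - slope p n (e i) = s - slope p n (e i) + 1 := by ring
      rw [e1] at h1
      exact lead_zero ld h1
  x_mem l {s k k'} h {a} _ ha i E := (cf_x G l h a ha i E).1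
  θ_x l {s k k'} h {a} _ ha := by
    funext E i
    rw [(cf_x G l h a ha i E).2]
    unfold DD
    rw [Finset.sum_apply]
    rfl
  act_mem {s k t m k'} h {a γ y} _ _ ha hθ hγ i E := (cf_act0 G h a γ ha hθ hγ i E).1
  θ_act {s k t m k'} h {a γ y} _ _ ha hθ hγ := by
    funext E i
    exact (cf_act0 G h a γ ha hθ hγ i E).2
  ev_surj {k} _ x := by
    obtain ⟨f, ⟨hf1, hf2⟩, -⟩ := G.bij k x
    obtain ⟨a, ha, -⟩ := exists_ev (X := X) G x f hf1 hf2
    exact ⟨a, ha⟩
  ev_lift {s k a} _ ha h0 := by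
    obtain ⟨b, hb, hb1, hb2⟩ := exists_ev (X := X) G (Y.ev k a) (fun i => cf G k a i 0)
      (fun i => HK_cast (by rw [dT_zero, add_zero]) (cf_hom G k a i 0))
      (by rw [Z.ev, c_eq_cf G])
    refine ⟨b, fun i E => ?_, hb⟩
    by_cases hE : E = 0
    · rw [hE, hb1]
      have h1 := lead_inj ld (ha i 0) (congrFun h0 i)
      have e1 : s + 1 - slope p n (e i) = s - slope p n (e i) + 1 := by ring
      rw [e1]
      exact h1
    · rw [hb2 i E hE, map_zero]
      exact Ideal.zero_mem _
  ev_zero {s k a} _ ha h0 := by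
    funext i
    have h1 : cf G k a i 0 = cf G k 0 i 0 := cf_zero_unique G (by rw [h0, map_zero]) i
    change ld.L _ (RN p n (cf G k a i 0)) = 0
    rw [h1, cf_zero, map_zero, lead_map_zero]
  ev_sep {k} _ x hx := by
    obtain ⟨a₀, -, ha₀⟩ := hx 0
    have h1 : ∀ i, cf G k a₀ i 0 = 0 := by
      intro i
      apply RN_injective p
      rw [map_zero]
      refine eq_zero_of_Ip p fun t => ?_
      obtain ⟨a, ha, hax⟩ := hx (t + slope p n (e i))
      have h2 := ha i 0
      rw [cf_zero_unique G (ha₀.trans hax.symm) i]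
      rwa [add_sub_cancel_right] at h2
    apply Z.e_inj k
    rw [← ha₀, Z.ev, c_eq_cf G, map_zero]
    refine Finset.sum_eq_zero fun i _ => ?_
    rw [h1, map_zero, map_zero, map_zero]

end Vale.Agent.P221.H460
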