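import Vale.Agent.P221.H460.C0b
import Vale.Agent.P221.H460.C3
import Vale.Agent.P221.E.H903.N
import Vale.Agent.P221.V.H520.End

/-!
# P221 (helper460): regular even systems are in the thick subcategory

* `finZp_of_gens` : `π_k` is finitely generated over `ℤ_p`;
* `fext_of_gens` : the system is an extension of one filtered system;
* `thick_of_reg` : the conclusion.
-/

open MvPolynomial CategoryTheory MonoidalCategory MonObj Limits Pretriangulated
open Vale.Agent.P251.T Vale.Agent.P251.M Vale.Agent.P251.S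

set_option linter.unusedSectionVars false

universe u

namespace Vale.Agent.P221.H460

open Vale.Agent.P221.T Vale.Agent.P221.T.H746 Vale.Agent.P221.V

section

variable {p : ℕ} [hp : Fact p.Prime] {n : ℕ} {ld : Lead p n} {S : Src p n} {O : OpAlg ld S}
  {Y : Sys S} {M : Type} [AddCommGroup M] [Module (KK p) M] {Z : Ev O Y M} {X : OpX O}
  {r : ℕ} {e : Fin r → ℤ}

/-- the homogeneous families -/
noncomputable def HS (p : ℕ) [Fact p.Prime] {n r : ℕ} (e : Fin r → ℤ) (k : ℤ) :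
    Submodule ℤ_[p] (Fin r → MvPolynomial (Fin n) ℤ_[p]) where
  carrier := {f | HomD p e k f}
  add_mem' {f f'} h h' i := by
    change HK p (k - e i) (RN p n (f i + f' i))
    rw [map_add]
    exact (h i).add (h' i)
  zero_mem' i := by
    change HK p (k - e i) (RN p n 0)
    rw [map_zero]
    exact HK_zero _
  smul_mem' c f h i := by
    change HK p (k - e i) (RN p n (c • f i))
    rw [smul_eq_C_mul, map_mul]
    have h1 : RN p n (C c : MvPolynomial (Fin n) ℤ_[p]) = C c := rename_C _ _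
    rw [h1]
    have h2 := (isWeightedHomogeneous_C (fun i => sV p (i + 1)) c).mul (h i)
    rwa [zero_add] at h2

theorem mem_HS {k : ℤ} {f : Fin r → MvPolynomial (Fin n) ℤ_[p]} : f ∈ HS p e k ↔ HomD p e k f :=
  Iff.rfl

theorem HS_fg (k : ℤ) : (HS p (n := n) e k).FG := by
  classical
  let gen : (Σ i : Fin r, (H609.finite_wF (p := p) (n := n) (k - e i)).toFinset) →
      (Fin r → MvPolynomial (Fin n) ℤ_[p]) := fun j => Pi.single j.1 (monomial j.2.1 (1 : ℤ_[p]))
  have h1 : (Submodule.span ℤ_[p] (Set.range gen)).FG := Submodule.fg_span (Set.finite_range gen)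
  refine h1.of_le fun f hf => ?_
  have h2 : f = ∑ i, Pi.single i (f i) := (Finset.univ_sum_single f).symm
  rw [h2]
  refine Submodule.sum_mem _ fun i _ => ?_
  rw [as_sum (f i), ← LinearMap.single_apply (R := ℤ_[p]), map_sum]
  refine Submodule.sum_mem _ fun ν hν => ?_
  have h3 := H609.HK_rn.1 (hf i) ν (mem_support_iff.1 hν)
  have h4 : (LinearMap.single ℤ_[p] (fun _ : Fin r => MvPolynomial (Fin n) ℤ_[p]) i)
      (monomial ν (coeff ν (f i))) = coeff ν (f i) • gen ⟨i, ν, by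
        rw [Set.Finite.mem_toFinset]
        exact h3⟩ := by
    have h5 : monomial ν (coeff ν (f i)) = coeff ν (f i) • (monomial ν (1 : ℤ_[p])) := by
      rw [smul_monomial, smul_eq_mul, _root_.mul_one]
    rw [h5, map_smul]
    rfl
  rw [h4]
  exact Submodule.smul_mem _ _ (Submodule.subset_span (Set.mem_range_self _))

/-- **`π_k` is finitely generated over `ℤ_p`** -/
theorem finZp_of_gens (G : Gens Z X r e) (k : ℤ) : FinZp p (Y.Pi k) := by
  have : Module.Finite ℤ_[p] (HS p (n := n) e k) := Module.Finite.iff_fg.2 (HS_fg k)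
  let fn : Y.Pi k → HS p (n := n) e k := fun x =>
    ⟨(G.bij k x).choose, (G.bij k x).choose_spec.1.1⟩
  have hfn : ∀ x, Z.e k x = psi G.g Z X (fn x).1 := fun x => (G.bij k x).choose_spec.1.2
  have huniq : ∀ (x : Y.Pi k) (f : HS p (n := n) e k), Z.e k x = psi G.g Z X f.1 → fn x = f :=
    fun x f h => Subtype.ext ((G.bij k x).choose_spec.2 f.1 ⟨f.2, h⟩).symm
  let φ : Y.Pi k →+ HS p (n := n) e k := AddMonoidHom.mk' fn fun x y => huniq _ _ (by
    rw [map_add, hfn, hfn]
    exact (psi_add G.g _ _).symm)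
  refine FinZp.of_equiv (AddEquiv.ofBijective φ ⟨fun x y h => ?_, fun f => ?_⟩)
    ⟨inferInstance, this⟩
  · apply Z.e_inj k
    rw [hfn, hfn]
    have h' : fn x = fn y := h
    rw [h']
  · obtain ⟨a, -, ha⟩ := exists_psi' (X := X) (Z := Z) G.g f.2
    exact ⟨Y.ev k a, huniq _ _ ha⟩

/-- the identity -/
def idMap (d : ℤ) (Y : Sys S) : PMap d Y Y 0 where
  f {k k'} h := by
    obtain rfl : k = k' := by omega
    exact AddMonoidHom.id _
  g {k k'} h := by
    obtain rfl : k = k' := by omega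
    exact AddMonoidHom.id _
  ev {k k'} h a _ := by
    obtain rfl : k = k' := by omega
    rfl
  act {k m l k' l'} h h₁ h₂ h₃ a γ _ _ := by
    obtain rfl : k = k' := by omega
    obtain rfl : l = l' := by omega
    rfl

/-- **the system is a filtered system with a finite resolution** -/
theorem fext_of_gens (G : Gens Z X r e) :
    ∃ d₀ : ℤ, ∀ d, d₀ ≤ d → ∃ i : ℕ, FExt d i 1 Y := by
  obtain ⟨d₀, hd₀⟩ := (H136.specRes p n).1 _ (grFree p n e fun i => slope p n (e i))
    (isGr_free _ _) ⟨r, e, _, LinearMap.id, ⟨fun _ _ x hx => hx, fun _ _ y hy => ⟨y, hy, rfl⟩⟩⟩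
  refine ⟨d₀, fun d hd => ?_⟩
  obtain ⟨i, hi⟩ := hd₀ d hd
  refine ⟨i, Y, idMap d Y, _, _, _, _, ⟨fun _ _ a => ⟨a, rfl⟩, fun _ _ a => ⟨a, rfl⟩⟩,
    H136.isGr_trunc (Fact.out : p.Prime).one_lt.le (isGr_free _ _) d, hi,
    ⟨(fsX G d).trunc⟩, ⟨fun k hk a => ?_, fun k hk a => ?_⟩⟩
  · apply (idMap d Y).ker.vA_inj
    rw [map_zero]
    exact (idMap d Y).ker.vA_mem hk a
  · apply (idMap d Y).ker.vP_inj
    rw [map_zero]
    exact (idMap d Y).ker.vP_mem hk a

end

section lib

variable {𝒯 : Type u} [Category.{0} 𝒯] [Preadditive 𝒯] [HasZeroObject 𝒯]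
    [HasShift 𝒯 ℤ] [∀ n : ℤ, (shiftFunctor 𝒯 n).Additive] [Pretriangulated 𝒯] [IsTriangulated 𝒯]
    [MonoidalCategory 𝒯] [SymmetricCategory 𝒯] [TensorTriangulated 𝒯] [MonoidalClosed 𝒯]
    [HasCoproducts.{0} 𝒯] [HasProducts.{0} 𝒯] [StableCat 𝒯]

/-- **objects with a regular even system are in `Thick B`** -/
theorem thick_of_reg {p n : ℕ} [hp : Fact p.Prime] {P : 𝒯} {ld : Lead p n} {S : SrcT p n P}
    {O : OpAlg ld S.src} {B : 𝒯} {q : P ⟶ B} {TB : ∀ d, FS (S.sys B) (grR p n) d}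
    (E : Env S O q TB) (hL : LiftsV S q) {Y : 𝒯} (hY : H395.PComplete p Y) {m₀ : ℤ}
    (hm : Conn m₀ Y) {M : Type} [AddCommGroup M] [Module (KK p) M] {Z : Ev O (S.sys Y) M}
    {X : OpX O} (hR : Reg Z X) : T.Thick B Y := by
  obtain ⟨r, e, ⟨G⟩⟩ := exists_gens hR
  obtain ⟨d, hd⟩ := fext_of_gens G
  obtain ⟨i, hF⟩ := hd d le_rfl
  exact thick_of_env E hL hY hF hm fun k => finZp_of_gens G k

end lib

end Vale.Agent.P221.H460
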