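import Vale.Agent.P221.St.Even
import Vale.Agent.P221.Loc.Int

/-!
# P221 (helper460): the set of degrees of a sparse spectrum
-/

open CategoryTheory MonoidalCategory MonObj Limits Pretriangulated

set_option linter.unusedSectionVars false

noncomputable section

namespace Vale.Agent.P221.H460

open Vale.Agent.P251.St Vale.Agent.P251.St.SHCat Vale.Agent.P257.St

variable {T : SHCat} {S : Susp T} {p : ℕ} {R : RingSp T}

/-- the set of degrees of a sparse spectrum -/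
theorem gap_deg {r : ℕ} {Y : T.C} (h : StI.Gap p r Y) :
    ∃ (D : ℤ → Prop) (ε N : ℤ), (∀ t a : ℤ, D (t + a * (2 * p - 2)) ↔ D t) ∧
      (∀ t, D t → 2 ∣ t - ε) ∧ (∀ t, D t → ∀ i : ℤ, 1 ≤ i → i < r → ¬ D (t + i)) ∧
      ∀ k : ℤ, N ≤ k → ¬ D k → ∀ y : (𝟙_ T.C)⟦k⟧ ⟶ Y, y = 0 := by
  obtain ⟨N, hN⟩ := h
  let D : ℤ → Prop := fun t => ∃ l : ℤ, N ≤ l ∧ (∃ y : StI.Pi l Y, y ≠ StI.nul _ Y) ∧
    (2 * p - 2 : ℤ) ∣ t - l
  obtain ⟨ε, hε⟩ : ∃ ε : ℤ, ∀ t, D t → 2 ∣ t - ε := by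
    by_cases h : ∃ l : ℤ, N ≤ l ∧ ∃ y : StI.Pi l Y, y ≠ StI.nul _ Y
    · obtain ⟨ε, h1, h2⟩ := h
      refine ⟨ε, ?_⟩
      rintro t ⟨l, hl, hy, hd⟩
      have h3 : (2 : ℤ) ∣ t - l := dvd_trans ⟨(p : ℤ) - 1, by ring⟩ hd
      have h4 : (2 : ℤ) ∣ l - ε := (hN l ε hl h1 hy h2).1.two_dvd
      have h5 := dvd_add h3 h4
      rwa [sub_add_sub_cancel] at h5
    · refine ⟨0, ?_⟩
      rintro t ⟨l, hl, hy, hd⟩
      exact absurd ⟨l, hl, hy⟩ h
  refine ⟨D, ε, N, ?_, hε, ?_, ?_⟩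
  · intro t a
    constructor
    · rintro ⟨l, hl, hy, hd⟩
      refine ⟨l, hl, hy, ?_⟩
      have h1 : t - l = t + a * (2 * p - 2) - l - (2 * p - 2) * a := by ring
      rw [h1]
      exact dvd_sub hd (dvd_mul_right _ _)
    · rintro ⟨l, hl, hy, hd⟩
      refine ⟨l, hl, hy, ?_⟩
      have h1 : t + a * (2 * p - 2) - l = t - l + (2 * p - 2) * a := by ring
      rw [h1]
      exact dvd_add hd (dvd_mul_right _ _)
  · rintro t ⟨l, hl, hy, hd⟩ i hi hir ⟨l', hl', hy', hd'⟩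
    refine (hN l' l hl' hl hy' hy).2 i.toNat (by omega) (by omega) ?_
    have h1 : (i.toNat : ℤ) = i := Int.toNat_of_nonneg (by omega)
    rw [h1]
    have h2 : l' - l - i = (t - l) - (t + i - l') := by ring
    rw [h2]
    exact dvd_sub hd hd'
  · intro k hk hDk y
    by_contra hy
    exact hDk ⟨k, hk, ⟨y, hy⟩, by rw [sub_self]; exact dvd_zero _⟩

/-- the tower is a generalised Moore spectrum -/
theorem isGenMoore_of_tower {φ : GHom S p R} {E : ℕ → T.C → Prop} {j : ℕ} {V : T.C}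
    (h : StI.IsTower φ E j V) : StI.IsGenMoore φ j V := by
  induction h with
  | base _ h1 h2 => exact StI.IsGenMoore.base h1 h2
  | step _ _ h2 h3 h4 h5 ih => exact StI.IsGenMoore.step ih h2 h3 h4 h5

theorem tower_mono {φ : GHom S p R} {E E' : ℕ → T.C → Prop} (hE : ∀ j V, E j V → E' j V) {j : ℕ}
    {V : T.C} (h : StI.IsTower φ E j V) : StI.IsTower φ E' j V := by
  induction h with
  | base h0 h1 h2 => exact StI.IsTower.base (hE _ _ h0) h1 h2
  | step _ h0 h2 h3 h4 h5 ih => exact StI.IsTower.step ih (hE _ _ h0) h2 h3 h4 h5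

theorem tower_zero {φ : GHom S p R} {E : ℕ → T.C → Prop} {j : ℕ} {V : T.C}
    (h : StI.IsTower φ E j V) : E 0 T.one := by
  induction h with
  | base h0 _ _ => exact h0
  | step _ _ _ _ _ _ ih => exact ih

/-- objects as in the statement are fp-spectra -/
theorem isFpType_of_isSparseFp {n : ℕ} {X : T.C} (h : StI.IsSparseFp S p n X) :
    StI.IsFpType S p n X := by
  obtain ⟨h1, h2, P, o, φ, V, m, N, h3, h4, h5⟩ := h
  exact ⟨h1, h2, P, o, φ, V, N, h3, isGenMoore_of_tower h4, h5⟩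

end Vale.Agent.P221.H460
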