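import Vale.Agent.P221.H460.Gen
import Vale.Agent.P221.H460.Dg
import Vale.Agent.P221.H521.ThickTen

/-!
# P221 (helper460): the final theorem, from the theorem on sparse fp-spectra
-/

open CategoryTheory MonoidalCategory MonObj Limits Pretriangulated

set_option linter.unusedSectionVars false

noncomputable section

namespace Vale.Agent.P221.H460

open Vale.Agent.P251.St Vale.Agent.P251.St.SHCat Vale.Agent.P257.St

variable {T : SHCat} {S : Susp T} {p n : ℕ}

theorem thick_of_thickI {B X : T.C} (h : StI.ThickOf (fun Z : T.C => Z = B) X) : St.Thick B X := by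
  induction h with
  | base h => subst h; exact St.Thick.base
  | zero h0 => exact St.Thick.zero h0
  | susp k _ ih => exact St.Thick.susp k ih
  | cof hd _ _ ih₁ ih₂ => exact St.Thick.cof hd ih₁ ih₂
  | retract i r hir _ ih => exact St.Thick.retract i r hir ih

/-- **the final theorem, from the theorem on sparse fp-spectra** -/
theorem final_of_sparse (hp : p.Prime) {B X M : T.C} {f : X ⟶ M}
    (hB : StI.IsStandardForm S p n B) (hX : StI.IsFpType S p n X) (hf : StI.EvIso f)
    (hQ : ∀ Y : T.C, StI.IsSparseFp S p n Y → St.Thick B Y)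
    (hM : StI.ThickOf (StI.IsGenE S p n) M) : StI.ThickOf (fun Y : T.C => Y = B) X := by
  refine thick_of_gen (Q := St.Thick B) hp hB hX hf (fun _ h => h) ?_
  refine thickOf_mono' (fun P hP => ?_) hM
  obtain ⟨Y, W, c, h1, h2, h3⟩ := hP
  exact ⟨Y, c, h1, H521.thick_of_ten (thick_of_thickI h2) (hQ _ h3)⟩
where
  thickOf_mono' {Q Q' : T.C → Prop} (h : ∀ Y, Q Y → Q' Y) {X : T.C}
      (hX : StI.ThickOf Q X) : StI.ThickOf Q' X := by
    induction hX with
    | base h0 => exact StI.ThickOf.base (h _ h0)
    | zero h0 => exact StI.ThickOf.zero h0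
    | susp k _ ih => exact StI.ThickOf.susp k ih
    | cof hd _ _ ih₁ ih₂ => exact StI.ThickOf.cof hd ih₁ ih₂
    | retract i r hir _ ih => exact StI.ThickOf.retract i r hir ih

end Vale.Agent.P221.H460
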