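import Vale.Agent.P221.St.EvenA
import Vale.Agent.P221.H460.Desc

/-!
# P221 (helper460): the statement layer `StE`
-/

open CategoryTheory MonoidalCategory MonObj Limits Pretriangulated

set_option linter.unusedSectionVars false

noncomputable section

namespace Vale.Agent.P221.H460

open Vale.Agent.P251.St Vale.Agent.P251.St.SHCat Vale.Agent.P257.St

variable {T : SHCat} {S : Susp T} {p n : ℕ} {R : RingSp T}

theorem thickI_of_E {Q : T.C → Prop} {X : T.C} (h : StE.ThickOf Q X) : StI.ThickOf Q X := by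
  induction h with
  | base h => exact StI.ThickOf.base h
  | zero h0 => exact StI.ThickOf.zero h0
  | susp k _ ih => exact StI.ThickOf.susp k ih
  | cof hd _ _ ih₁ ih₂ => exact StI.ThickOf.cof hd ih₁ ih₂
  | retract i r hir _ ih => exact StI.ThickOf.retract i r hir ih

theorem thickE_of_I {Q : T.C → Prop} {X : T.C} (h : StI.ThickOf Q X) : StE.ThickOf Q X := by
  induction h with
  | base h => exact StE.ThickOf.base h
  | zero h0 => exact StE.ThickOf.zero h0
  | susp k _ ih => exact StE.ThickOf.susp k ih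
  | cof hd _ _ ih₁ ih₂ => exact StE.ThickOf.cof hd ih₁ ih₂
  | retract i r hir _ ih => exact StE.ThickOf.retract i r hir ih

theorem isStandardForm_of_E {B : T.C} (h : StE.IsStandardForm S p n B) :
    StI.IsStandardForm S p n B := by
  obtain ⟨P, o, φ, x, C, a, q, c, h1, h2, h3, h4⟩ := h
  exact ⟨P, o, φ, x, C, a, q, c, h1, h2, ⟨h3.act, h3.map, h3.surj, h3.ker⟩, h4⟩

theorem tower_of_E {φ : GHom S p R} {E : ℕ → T.C → Prop} {j : ℕ} {V : T.C}
    (h : StE.IsTower φ E j V) : StI.IsTower φ E j V := by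
  induction h with
  | base h0 h1 h2 => exact StI.IsTower.base h0 h1 h2
  | step _ h0 h2 h3 h4 h5 ih => exact StI.IsTower.step ih h0 h2 h3 h4 h5

theorem isFpType_of_E {E : ℕ → T.C → Prop} {X : T.C} (h : StE.IsFp S p n E X) :
    StI.IsFpType S p n X := by
  obtain ⟨h1, h2, P, o, φ, V, N, h3, h4, h5⟩ := h
  exact ⟨h1, h2, P, o, φ, V, N, h3, isGenMoore_of_tower (tower_of_E h4), h5⟩

/-- the data of a sparse spectrum, unpacked -/
theorem exists_of_isSparse {X : T.C} (h : StE.IsSparse S p n X) :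
    ∃ (m : ℕ) (D : ℤ → Prop) (ε N N' : ℤ) (P : RingSp T) (o : Oriented S P) (φ : GHom S p P)
      (V : T.C), (∀ t a : ℤ, D (t + a * (2 * p - 2)) ↔ D t) ∧ (∀ t, D t → 2 ∣ t - ε) ∧
      (∀ t, D t → ∀ i : ℤ, 1 ≤ i → i < n - m → ¬ D (t + i)) ∧
      St.PComplete p X ∧ St.BoundedBelow X ∧ IsBrownPeterson p o φ ∧
      StI.IsTower φ (fun j W => j ≤ m → ∀ k : ℤ, N ≤ k → ¬ D k →
        ∀ y : (𝟙_ T.C)⟦k⟧ ⟶ X ⊗ W, y = 0) (n + 1) V ∧
      (∀ k : ℤ, Finite ((𝟙_ T.C)⟦k⟧ ⟶ X ⊗ V)) ∧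
      ∀ k : ℤ, N' < |k| → ∀ y : (𝟙_ T.C)⟦k⟧ ⟶ X ⊗ V, y = 0 := by
  obtain ⟨m, D, N, ⟨h1, h2, h3⟩, h4, h5, P, o, φ, V, N', h6, h7, h8⟩ := h
  obtain ⟨ε, hε⟩ : ∃ ε : ℤ, ∀ t, D t → 2 ∣ t - ε := by
    by_cases h : ∃ l : ℤ, D l
    · obtain ⟨ε, hε⟩ := h
      exact ⟨ε, fun t ht => (h2 t ε ht hε).two_dvd⟩
    · exact ⟨0, fun t ht => absurd ⟨t, ht⟩ h⟩
  have hper : ∀ (a : ℕ) (t : ℤ), D (t + a * (2 * p - 2)) ↔ D t := by
    intro a
    induction a with
    | zero => intro t; simp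
    | succ a ih =>
      intro t
      rw [← ih t, ← h1 (t + a * (2 * p - 2))]
      push_cast
      ring_nf
  refine ⟨m, D, ε, N, N', P, o, φ, V, ?_, hε, ?_, h4, h5, h6, ?_, fun k => (h8 k).1,
    fun k => (h8 k).2⟩
  · intro t a
    obtain ⟨b, rfl | rfl⟩ := Int.eq_nat_or_neg a
    · exact hper b t
    · rw [← hper b (t + -(b : ℤ) * (2 * p - 2))]
      have : t + -(b : ℤ) * (2 * p - 2) + b * (2 * p - 2) = t := by ring
      rw [this]
  · intro t ht i hi hin
    have := h3 t i.toNat ht (by omega) (by omega)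
    rwa [Int.toNat_of_nonneg (by omega)] at this
  · exact tower_mono (fun j W hE hj k hk => hE hj k hk) (tower_of_E h7)

theorem tower_pos {φ : GHom S p R} {E : ℕ → T.C → Prop} {j : ℕ} {V : T.C}
    (h : StE.IsTower φ E j V) : 1 ≤ j := by
  induction h with
  | base _ _ _ => exact le_rfl
  | step _ _ _ _ _ _ _ => omega

theorem towerE_mono {φ : GHom S p R} {E E' : ℕ → T.C → Prop} (h0 : E' 0 T.one)
    (hE : ∀ j V, 1 ≤ j → E j V → E' j V) {j : ℕ} {V : T.C} (h : StE.IsTower φ E j V) :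
    StE.IsTower φ E' j V := by
  induction h with
  | base _ h1 h2 => exact StE.IsTower.base h0 h1 h2
  | step h h1 h2 h3 h4 h5 ih => exact StE.IsTower.step ih (hE _ _ (tower_pos h) h1) h2 h3 h4 h5

/-- fp-spectra with sparse homotopy -/
theorem isSparse_of_conc {X : T.C} {D : ℤ → Prop} {N : ℤ} (hD : StE.IsDeg p n D)
    (h : StE.IsFp S p n (fun _ _ => True) X) (hX : StE.Conc D N X) : StE.IsSparse S p n X := by
  obtain ⟨h1, h2, P, o, φ, V, N', h3, h4, h5⟩ := h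
  refine ⟨0, D, N, hD, h1, h2, P, o, φ, V, N', h3, towerE_mono ?_ ?_ h4, h5⟩
  · intro _ k hk hDk y
    have h6 : (show (𝟙_ T.C)⟦k⟧ ⟶ X ⊗ 𝟙_ T.C from y) ≫ (ρ_ X).hom = 0 := hX k hk hDk _
    exact (cancel_mono (ρ_ X).hom).1 (h6.trans Limits.zero_comp.symm)
  · intro j V hj _ hj'
    omega

/-- **the final theorem in the statement layer `StE`, from the theorem on sparse fp-spectra** -/
theorem finalE_of_sparse (hp : p.Prime) {B X M : T.C} {f : X ⟶ M} {E : ℕ → T.C → Prop}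
    (hB : StE.IsStandardForm S p n B) (hX : StE.IsFp S p n E X) (hf : StE.EvIso f)
    (hQ : ∀ Y : T.C, StE.IsSparse S p n Y → St.Thick B Y)
    (hM : StE.ThickOf (StE.IsGen S p n) M) : StE.ThickOf (fun Y : T.C => Y = B) X := by
  refine thickE_of_I (thick_of_gen (Q := St.Thick B) hp (isStandardForm_of_E hB)
    (isFpType_of_E hX) hf (fun _ h => h) ?_)
  refine final_of_sparse.thickOf_mono' (fun P hP => ?_) (thickI_of_E hM)
  obtain ⟨Y, W, c, h1, h2, h3⟩ := hP
  exact ⟨Y, c, h1, H521.thick_of_ten (thick_of_thickI (thickI_of_E h2)) (hQ _ h3)⟩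

/-- **the final theorem for sparse fp-spectra in the statement layer `StE`** -/
theorem finalE_of_conc {B X : T.C} {D : ℤ → Prop} {N : ℤ}
    (hQ : ∀ Y : T.C, StE.IsSparse S p n Y → St.Thick B Y) (hD : StE.IsDeg p n D)
    (h : StE.IsFp S p n (fun _ _ => True) X) (hX : StE.Conc D N X) :
    StE.ThickOf (fun Y : T.C => Y = B) X :=
  thickE_of_I (Loc.thickI_of_thick (hQ X (isSparse_of_conc hD h hX)))

end Vale.Agent.P221.H460
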