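import Vale.Agent.P221.H460.Reg
import Vale.Agent.P221.T.H609.Dec
import Mathlib.Algebra.Module.ZMod
import Mathlib.LinearAlgebra.FiniteDimensional.Defs
import Mathlib.LinearAlgebra.Basis.VectorSpace
import Mathlib.Algebra.Field.ZMod

/-!
# P221 (helper460): generators of a regular even system

* `exists_gens` : a system with `Reg Z X` has generators in the sense of `Gens`.
-/

open MvPolynomial

set_option linter.unusedSectionVars false

namespace Vale.Agent.P221.H460

open Vale.Agent.P221.T Vale.Agent.P221.T.H746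

variable {p : ℕ} [hp : Fact p.Prime] {n : ℕ}

/-! ### a basis of a finite group killed by `p` -/

theorem exists_fin_basis_aux (G : Type) [AddCommGroup G] [Module (ZMod p) G] [Finite G] :
    ∃ (m : ℕ) (b : Fin m → G), (∀ x, ∃ c : Fin m → ℕ, x = ∑ j, c j • b j) ∧
      ∀ c : Fin m → ℕ, ∑ j, c j • b j = 0 → ∀ j, p ∣ c j := by
  have hf : Module.Finite (ZMod p) G := Module.Finite.of_finite
  let b := Module.finBasis (ZMod p) G
  have hs : ∀ (c : ℕ) (x : G), c • x = (c : ZMod p) • x := fun c x =>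
    (Nat.cast_smul_eq_nsmul _ c x).symm
  refine ⟨_, b, fun x => ⟨fun j => (b.repr x j).val, ?_⟩, fun c hc j => ?_⟩
  · conv_lhs => rw [← b.sum_repr x]
    refine Finset.sum_congr rfl fun j _ => ?_
    rw [hs, ZMod.natCast_zmod_val]
  · have h1 : ∑ j, (c j : ZMod p) • b j = 0 := by
      rw [← hc]
      exact Finset.sum_congr rfl fun j _ => (hs _ _).symm
    have h2 := Fintype.linearIndependent_iff.1 b.linearIndependent _ h1 j
    exact (ZMod.natCast_eq_zero_iff _ _).1 h2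

theorem exists_fin_basis (G : Type) [AddCommGroup G] [Finite G] (h : ∀ x : G, p • x = 0) :
    ∃ (m : ℕ) (b : Fin m → G), (∀ x, ∃ c : Fin m → ℕ, x = ∑ j, c j • b j) ∧
      ∀ c : Fin m → ℕ, ∑ j, c j • b j = 0 → ∀ j, p ∣ c j := by
  let _ : Module (ZMod p) G := AddCommGroup.zmodModule h
  exact exists_fin_basis_aux (p := p) G

/-! ### polynomials -/

/-- `v_0, …, v_n` -/
noncomputable def vq (p n : ℕ) [Fact p.Prime] : ℕ → MvPolynomial (Fin n) ℤ_[p]
  | 0 => (p : MvPolynomial (Fin n) ℤ_[p])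
  | a + 1 => if h : a < n then MvPolynomial.X ⟨a, h⟩ else 0

theorem RN_vq {a : ℕ} (ha : a ≤ n) : RN p n (vq p n a) = vK p a := by
  rcases a with _ | a
  · simp only [vq, vK]
    rw [map_natCast]
  · simp only [vq, vK]
    rw [dif_pos (by omega), rename_X]

theorem HK_vK (i : ℕ) : HK p (sV p i) (vK p i) := by
  cases i with
  | zero =>
    have e : sV p 0 = 0 := by simp [sV]
    have e' : vK p 0 = (C (p : ℤ_[p]) : KK p) := by
      change ((p : KK p)) = _
      rw [map_natCast]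
    rw [e, e']
    exact MvPolynomial.isWeightedHomogeneous_C _ _
  | succ i => exact MvPolynomial.isWeightedHomogeneous_X _ _ i

theorem HK.add {k : ℤ} {f g : KK p} (hf : HK p k f) (hg : HK p k g) : HK p k (f + g) :=
  (weightedHomogeneousSubmodule ℤ_[p] (fun i : ℕ => sV p (i + 1)) k).add_mem hf hg

theorem HK.sub {k : ℤ} {f g : KK p} (hf : HK p k f) (hg : HK p k g) : HK p k (f - g) :=
  (weightedHomogeneousSubmodule ℤ_[p] (fun i : ℕ => sV p (i + 1)) k).sub_mem hf hg

theorem HK.sum {k : ℤ} {ι : Type*} (A : Finset ι) {f : ι → KK p} (hf : ∀ i ∈ A, HK p k (f i)) :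
    HK p k (∑ i ∈ A, f i) :=
  (weightedHomogeneousSubmodule ℤ_[p] (fun i : ℕ => sV p (i + 1)) k).sum_mem hf

/-- homogeneous elements of the ideal `(v_0, …, v_{m-1})` -/
def In (m : ℕ) (D : ℤ) (f : MvPolynomial (Fin n) ℤ_[p]) : Prop :=
  ∃ h : Fin m → MvPolynomial (Fin n) ℤ_[p], (∀ a : Fin m, HK p (D - sV p a) (RN p n (h a))) ∧
    f = ∑ a : Fin m, vq p n a * h a

theorem In.add {m : ℕ} {D : ℤ} {f g : MvPolynomial (Fin n) ℤ_[p]} (hf : In m D f)
    (hg : In m D g) : In m D (f + g) := by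
  obtain ⟨h, h1, h2⟩ := hf
  obtain ⟨h', h1', h2'⟩ := hg
  refine ⟨fun a => h a + h' a, fun a => ?_, ?_⟩
  · rw [map_add]
    exact (h1 a).add (h1' a)
  · rw [h2, h2', ← Finset.sum_add_distrib]
    exact Finset.sum_congr rfl fun a _ => (mul_add _ _ _).symm

theorem In.mul {m b : ℕ} {D : ℤ} {f : MvPolynomial (Fin n) ℤ_[p]} (hf : In m D f)
    (hb : b ≤ n) : In m (D + sV p b) (vq p n b * f) := by
  obtain ⟨h, h1, h2⟩ := hf
  refine ⟨fun a => vq p n b * h a, fun a => ?_, ?_⟩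
  · rw [map_mul, RN_vq hb]
    exact HK_cast (by ring) ((HK_vK b).mul (h1 a))
  · rw [h2, Finset.mul_sum]
    exact Finset.sum_congr rfl fun a _ => by ring

/-- homogeneous polynomials whose constant coefficient is divisible by `p` -/
theorem In_of_const {D : ℤ} {f : MvPolynomial (Fin n) ℤ_[p]} (hf : HK p D (RN p n f))
    (h : (p : ℤ_[p]) ∣ coeff 0 f) : In (n + 1) D f := by
  obtain ⟨g, hg1, -, hg3⟩ := H609.dec_one D 0 le_rfl f hf (by
    rw [zero_add]
    refine (mem_Ip_RN_iff p).2 fun E => ?_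
    by_cases hE : E = 0
    · rw [hE, map_zero]
      simpa using h
    · have h1 : E.degree ≠ 0 := fun h1 => hE ((Finsupp.degree_eq_zero_iff _).1 h1)
      have h2 : (1 : ℤ).toNat - E.degree = 0 := by
        have : (1 : ℤ).toNat = 1 := rfl
        omega
      rw [h2, pow_zero]
      exact one_dvd _)
  refine ⟨g, hg1, ?_⟩
  rw [hg3]
  refine Finset.sum_congr rfl fun b _ => ?_
  congr 1
  refine Fin.cases ?_ (fun i => ?_) b
  · simp only [H609.vn, Fin.cases_zero, Fin.val_zero, vq]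
    rw [map_natCast]
  · simp only [H609.vn, Fin.cases_succ, Fin.val_succ, vq]
    rw [dif_pos i.2]

/-- `p`-adic expansions of homogeneous polynomials -/
theorem exists_expansion (D : ℤ) (f : ℕ → MvPolynomial (Fin n) ℤ_[p])
    (hf : ∀ l, HK p D (RN p n (f l))) :
    ∃ G : ℕ → MvPolynomial (Fin n) ℤ_[p], (∀ m, HK p D (RN p n (G m))) ∧
      ∀ m, G m = f m + p • G (m + 1) := by
  classical
  have hp0 : (p : ℤ_[p]) ≠ 0 := by exact_mod_cast hp.out.ne_zero
  have h1 : ∀ E : Fin n →₀ ℕ, ∃ L : ℕ → ℤ_[p], ∀ m, L m = coeff E (f m) + (p : ℤ_[p]) * L (m + 1) := by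
    intro E
    obtain ⟨L₀, hL₀⟩ := exists_padic_sum p (fun l => (p : ℤ_[p]) ^ l * coeff E (f l)) (fun l => l)
      (fun _ _ h => h) (fun N => ⟨N, le_rfl⟩) (fun l => Dvd.intro _ rfl)
    choose L hL using hL₀
    refine ⟨L, fun m => ?_⟩
    have h2 := hL m
    have h3 := hL (m + 1)
    rw [Finset.sum_range_succ] at h3
    have h4 : (p : ℤ_[p]) ^ m * L m = (p : ℤ_[p]) ^ m *
        (coeff E (f m) + (p : ℤ_[p]) * L (m + 1)) := by
      rw [← h2, mul_add, ← mul_assoc, ← pow_succ, ← h3]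
      ring
    exact mul_left_cancel₀ (pow_ne_zero _ hp0) h4
  choose L hL using h1
  let A : Finset (Fin n →₀ ℕ) := (finite_weight p (n := n) D).toFinset
  have hA : ∀ E, E ∈ A ↔ Finsupp.weight (fun i : Fin n => sV p (i + 1)) E = D := fun E =>
    Set.Finite.mem_toFinset _
  refine ⟨fun m => ∑ E ∈ A, monomial E (L E m), fun m => ?_, fun m => ?_⟩
  · rw [HK_RN_iff]
    refine (weightedHomogeneousSubmodule ℤ_[p] (fun i : Fin n => sV p (i + 1)) D).sum_mem
      fun E hE => ?_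
    exact isWeightedHomogeneous_monomial _ _ _ ((hA E).1 hE)
  · have h2 : f m = ∑ E ∈ A, monomial E (coeff E (f m)) := by
      conv_lhs => rw [(f m).as_sum]
      refine Finset.sum_subset (fun E hE => (hA E).2 ((HK_RN_iff p).1 (hf m)
        (mem_support_iff.1 hE))) fun E _ hE => ?_
      rw [mem_support_iff, not_not] at hE
      rw [hE, map_zero]
    conv_rhs => rw [h2]
    rw [Finset.smul_sum, ← Finset.sum_add_distrib]
    refine Finset.sum_congr rfl fun E _ => ?_
    rw [hL E m, map_add, ← map_nsmul, nsmul_eq_mul]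

section

variable {ld : Lead p n} {S : Src p n} {O : OpAlg ld S}
  {Y : Sys S} {M : Type} [AddCommGroup M] [Module (KK p) M] {Z : Ev O Y M} {X : OpX O}
  {r : ℕ} {e : Fin r → ℤ} (g : ∀ i, Y.A (e i))

/-! ### the map `ψ` -/

/-- `ψ(f) = ∑ g_i f_i` -/
noncomputable def psi (Z : Ev O Y M) (X : OpX O) (f : Fin r → MvPolynomial (Fin n) ℤ_[p]) : M :=
  ∑ i, Z.c (e i) (g i) (X.eta (RN p n (f i)))

theorem psi_add (f f' : Fin r → MvPolynomial (Fin n) ℤ_[p]) :
    psi g Z X (fun i => f i + f' i) = psi g Z X f + psi g Z X f' := by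
  unfold psi
  rw [← Finset.sum_add_distrib]
  exact Finset.sum_congr rfl fun i _ => by rw [map_add, map_add, map_add]

theorem psi_sub (f f' : Fin r → MvPolynomial (Fin n) ℤ_[p]) :
    psi g Z X (fun i => f i - f' i) = psi g Z X f - psi g Z X f' := by
  unfold psi
  rw [← Finset.sum_sub_distrib]
  exact Finset.sum_congr rfl fun i _ => by rw [map_sub, map_sub, map_sub]

theorem psi_nsmul (N : ℕ) (f : Fin r → MvPolynomial (Fin n) ℤ_[p]) :
    psi g Z X (fun i => N • f i) = N • psi g Z X f := by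
  unfold psi
  rw [Finset.smul_sum]
  exact Finset.sum_congr rfl fun i _ => by rw [map_nsmul, map_nsmul, map_nsmul]

/-- homogeneous of degree `k` -/
def HomD (p : ℕ) [Fact p.Prime] {n r : ℕ} (e : Fin r → ℤ) (k : ℤ)
    (f : Fin r → MvPolynomial (Fin n) ℤ_[p]) : Prop := ∀ i, HK p (k - e i) (RN p n (f i))

theorem exists_psi {k : ℤ} {f : Fin r → MvPolynomial (Fin n) ℤ_[p]} (hf : HomD p e k f) :
    ∃ a : Y.A k, ∀ z, Z.c k a z = ∑ i, Z.c (e i) (g i) (X.eta (RN p n (f i)) * z) := by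
  choose μ hμ using fun i => X.mult (k - e i) (RN p n (f i)) (hf i)
  refine ⟨∑ i, Y.act (add_sub_cancel (e i) k) (g i) (μ i), fun z => ?_⟩
  rw [map_sum, LinearMap.sum_apply]
  refine Finset.sum_congr rfl fun i _ => ?_
  rw [Z.act, LinearMap.comp_apply, hμ]

theorem exists_psi' {k : ℤ} {f : Fin r → MvPolynomial (Fin n) ℤ_[p]} (hf : HomD p e k f) :
    ∃ a : Y.A k, (∀ z, Z.c k a z = ∑ i, Z.c (e i) (g i) (X.eta (RN p n (f i)) * z)) ∧
      Z.e k (Y.ev k a) = psi g Z X f := by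
  obtain ⟨a, ha⟩ := exists_psi (X := X) (Z := Z) g hf
  refine ⟨a, ha, ?_⟩
  rw [Z.ev, ha]
  exact Finset.sum_congr rfl fun i _ => by rw [_root_.mul_one]

/-- `g_i v_a`-combinations -/
theorem psi_mem_Nm {m : ℕ} (hm : m ≤ n + 1) {k : ℤ} {f : Fin r → MvPolynomial (Fin n) ℤ_[p]}
    (hf : HomD p e k f) (h : ∀ i, In m (k - e i) (f i)) :
    ∃ x ∈ Nm Z X m k, Z.e k x = psi g Z X f := by
  choose h h1 h2 using h
  obtain ⟨a, -, ha⟩ := exists_psi' (X := X) (Z := Z) g hf
  choose b hb using fun j : Fin m => exists_psi (X := X) (Z := Z) g (k := k - sV p j)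
    (f := fun i => h i j) (fun i => HK_cast (by ring) (h1 i j))
  refine ⟨Y.ev k a, ⟨b, ?_⟩, ha⟩
  rw [ha]
  unfold psi
  rw [Finset.sum_congr rfl fun j _ => hb j _, Finset.sum_comm]
  refine Finset.sum_congr rfl fun i _ => ?_
  rw [← map_sum]
  congr 1
  conv_lhs => rw [h2 i]
  rw [map_sum, map_sum]
  refine Finset.sum_congr rfl fun j _ => ?_
  rw [map_mul, RN_vq (by have := j.2; omega), map_mul, mul_comm]

theorem Nm_mono {m m' : ℕ} (h : m ≤ m') {k : ℤ} : Nm Z X m k ≤ Nm Z X m' k := by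
  obtain ⟨d, rfl⟩ := Nat.exists_eq_add_of_le h
  rintro x ⟨b, hb⟩
  let b' : ∀ a : Fin (m + d), Y.A (k - sV p a) := fun a =>
    if h : (a : ℕ) < m then b ⟨a, h⟩ else 0
  have h1 : ∀ i : Fin d, b' (Fin.natAdd m i) = 0 := fun i => dif_neg (by simp)
  have h2 : ∀ i : Fin m, b' (Fin.castAdd d i) = b i := fun i => dif_pos (by simp)
  refine ⟨b', ?_⟩
  rw [hb, Fin.sum_univ_add]
  have h3 : ∀ i : Fin d, Z.c _ (b' (Fin.natAdd m i)) (X.eta (vK p (Fin.natAdd m i : Fin (m + d)))) =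
        0 := by
    intro i
    rw [h1, map_zero (Z.c _), LinearMap.zero_apply]
  rw [Finset.sum_congr rfl fun i _ => h3 i, Finset.sum_const_zero, add_zero]
  refine Finset.sum_congr rfl fun i _ => ?_
  rw [h2]
  rfl

end

end Vale.Agent.P221.H460
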