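import Vale.Agent.P221.H460.C0

/-!
# P221 (helper460): generators of a regular even system, second part

* `exists_family` : homogeneous elements whose classes form a basis of `π_* X / N_{n+1}`;
* `exists_psi_eq` : `ψ` is onto; `eq_zero_of_psi` : `ψ` is injective;
* `exists_gens`.
-/

open MvPolynomial

set_option linter.unusedSectionVars false

namespace Vale.Agent.P221.H460

open Vale.Agent.P221.T Vale.Agent.P221.T.H746

variable {p : ℕ} [hp : Fact p.Prime] {n : ℕ}
  {ld : Lead p n} {S : Src p n} {O : OpAlg ld S}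
  {Y : Sys S} {M : Type} [AddCommGroup M] [Module (KK p) M] {Z : Ev O Y M} {X : OpX O}

theorem mem_N1_of_p (hR : Reg Z X) {k : ℤ} (x : Y.Pi k) {m : ℕ} (hm : 1 ≤ m) :
    p • x ∈ Nm Z X m k := by
  apply Nm_mono hm
  have e0 : k - sV p 0 = k := by simp [sV]
  have h1 : ∀ j, k - sV p 0 = j → ∀ y : Y.Pi k, ∃ b : Y.A j, Z.c j b 1 = Z.e k y := by
    intro j hj y
    obtain rfl : j = k := by omega
    obtain ⟨b, hb⟩ := hR.surj j y
    exact ⟨b, by rw [← Z.ev, hb]⟩
  obtain ⟨b, hb⟩ := h1 _ rfl x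
  refine ⟨fun a => (show ((a : Fin 1) : ℕ) = 0 by omega) ▸ b, ?_⟩
  rw [Fin.sum_univ_one]
  change _ = Z.c (k - sV p 0) b (X.eta (vK p 0))
  have h2 : X.eta (vK p 0) = p • (1 : GG p) := by
    change X.eta ((p : ℕ) : KK p) = _
    rw [map_natCast, nsmul_eq_mul, _root_.mul_one]
  rw [h2, map_nsmul, map_nsmul, hb]

/-- **homogeneous elements whose classes form a basis of `π_* X / N_{n+1}`** -/
theorem exists_family (hR : Reg Z X) : ∃ (r : ℕ) (e : Fin r → ℤ) (g : ∀ i, Y.A (e i)),
    (∀ (k : ℤ) (x : Y.Pi k), ∃ c : Fin r → ℕ, (∀ i, e i ≠ k → c i = 0) ∧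
      ∃ y ∈ Nm Z X (n + 1) k, Z.e k x = ∑ i, c i • Z.c (e i) (g i) 1 + Z.e k y) ∧
    ∀ (k : ℤ) (c : Fin r → ℕ), (∀ i, e i ≠ k → c i = 0) →
      (∃ y ∈ Nm Z X (n + 1) k, ∑ i, c i • Z.c (e i) (g i) 1 = Z.e k y) → ∀ i, p ∣ c i := by
  classical
  obtain ⟨m₀, hm₀⟩ := hR.bdd
  obtain ⟨m₁, hm₁⟩ := hR.fin'
  -- bases in each degree
  have hb : ∀ k : ℤ, ∃ (m : ℕ) (b : Fin m → (Y.Pi k ⧸ Nm Z X (n + 1) k)),
      (∀ x, ∃ c : Fin m → ℕ, x = ∑ j, c j • b j) ∧
      ∀ c : Fin m → ℕ, ∑ j, c j • b j = 0 → ∀ j, p ∣ c j := by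
    intro k
    have := hR.fin k
    refine exists_fin_basis _ fun x => ?_
    obtain ⟨x, rfl⟩ := QuotientAddGroup.mk_surjective x
    rw [← QuotientAddGroup.mk_nsmul, QuotientAddGroup.eq_zero_iff]
    exact mem_N1_of_p hR x (by omega)
  choose m b hb1 hb2 using hb
  have hlift : ∀ (k : ℤ) (j : Fin (m k)), ∃ a : Y.A k,
      (QuotientAddGroup.mk (Y.ev k a) : Y.Pi k ⧸ Nm Z X (n + 1) k) = b k j := by
    intro k j
    obtain ⟨x, hx⟩ := QuotientAddGroup.mk_surjective (b k j)
    obtain ⟨a, rfl⟩ := hR.surj k x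
    exact ⟨a, hx⟩
  choose g hg using hlift
  let I : Finset ℤ := Finset.Icc m₀ m₁
  let ι : Type := Σ k : I, Fin (m k.1)
  let q : Fin (Fintype.card ι) ≃ ι := (Fintype.equivFin ι).symm
  -- sums over `ι`
  have hsum : ∀ (k : ℤ) (F : ι → M), (∀ i : ι, i.1.1 ≠ k → F i = 0) → ∀ hk : k ∈ I,
      ∑ i, F (q i) = ∑ j : Fin (m k), F ⟨⟨k, hk⟩, j⟩ := by
    intro k F hF hk
    rw [q.sum_comp, Fintype.sum_sigma, Finset.sum_eq_single (⟨k, hk⟩ : I)]
    · intro k' _ hk'
      refine Finset.sum_eq_zero fun j _ => hF _ fun h => hk' (Subtype.ext h)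
    · intro h
      exact absurd (Finset.mem_univ _) h
  -- the values of combinations
  have hval : ∀ (k : ℤ) (c : Fin (m k) → ℕ), ∃ x : Y.Pi k,
      (QuotientAddGroup.mk x : Y.Pi k ⧸ Nm Z X (n + 1) k) = ∑ j, c j • b k j ∧
        Z.e k x = ∑ j, c j • Z.c k (g k j) 1 := by
    intro k c
    refine ⟨∑ j, c j • Y.ev k (g k j), ?_, ?_⟩
    · rw [← QuotientAddGroup.mk'_apply, map_sum]
      refine Finset.sum_congr rfl fun j _ => ?_
      rw [map_nsmul, QuotientAddGroup.mk'_apply, hg]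
    · rw [map_sum]
      refine Finset.sum_congr rfl fun j _ => ?_
      rw [map_nsmul, Z.ev]
  refine ⟨Fintype.card ι, fun i => (q i).1.1, fun i => g _ (q i).2, fun k x => ?_, fun k c hc hy i => ?_⟩
  · by_cases hk : k ∈ I
    · obtain ⟨c, hc⟩ := hb1 k (QuotientAddGroup.mk x)
      let c' : ι → ℕ := fun i => if h : i.1.1 = k then c (Fin.cast (by rw [h]) i.2) else 0
      have h0 : ∀ i : ι, i.1.1 ≠ k → c' i = 0 := fun i hi => dif_neg hi
      refine ⟨fun i => c' (q i), fun i hi => h0 _ hi, ?_⟩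
      obtain ⟨x', hx', hx''⟩ := hval k c
      refine ⟨x - x', ?_, ?_⟩
      · rw [← QuotientAddGroup.eq_zero_iff, QuotientAddGroup.mk_sub, hc, hx', sub_self]
      · rw [hsum k (fun i => c' i • Z.c _ (g _ i.2) 1) (fun i hi => by rw [h0 i hi, zero_smul]) hk,
          map_sub, hx'']
        have h2 : ∑ j : Fin (m k), c' ⟨⟨k, hk⟩, j⟩ • Z.c k (g k j) 1 =
            ∑ j, c j • Z.c k (g k j) 1 := by
          refine Finset.sum_congr rfl fun j _ => ?_
          have h3 : c' ⟨⟨k, hk⟩, j⟩ = c j := dif_pos rfl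
          rw [h3]
        rw [h2, add_sub_cancel]
    · refine ⟨fun _ => 0, fun _ _ => rfl, x, ?_, ?_⟩
      · rw [Finset.mem_Icc, not_and_or, not_le, not_le] at hk
        rcases hk with hk | hk
        · rw [hm₀ k hk x]
          exact AddSubgroup.zero_mem _
        · exact hm₁ k hk x
      · simp
  · by_cases hk : (q i).1.1 = k
    · subst hk
      have hk : (q i).1.1 ∈ I := (q i).1.2
      set k := (q i).1.1 with hkdef
      obtain ⟨y, hy, hy'⟩ := hy
      let c' : ι → ℕ := fun i => c (q.symm i)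
      have h0 : ∀ i : ι, i.1.1 ≠ k → c' i = 0 := fun i hi => hc _ (by
        change ((q (q.symm i)).1.1) ≠ k
        rw [Equiv.apply_symm_apply]
        exact hi)
      have h1 : ∑ i, c i • Z.c _ (g _ (q i).2) 1 = ∑ i, c' (q i) • Z.c _ (g _ (q i).2) 1 := by
        refine Finset.sum_congr rfl fun i _ => ?_
        change c i • _ = c (q.symm (q i)) • _
        rw [Equiv.symm_apply_apply]
      rw [h1, hsum k (fun i => c' i • Z.c _ (g _ i.2) 1)
        (fun i hi => by rw [h0 i hi, zero_smul]) hk] at hy'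
      obtain ⟨x', hx', hx''⟩ := hval k fun j => c' ⟨⟨k, hk⟩, j⟩
      have h2 : x' = y := Z.e_inj k (hx''.trans hy')
      rw [h2, (QuotientAddGroup.eq_zero_iff _).2 hy] at hx'
      have h3 := hb2 k _ hx'.symm (q i).2
      have h4 : c' ⟨⟨k, hk⟩, (q i).2⟩ = c i := by
        change c (q.symm (q i)) = c i
        rw [Equiv.symm_apply_apply]
      rwa [h4] at h3
    · rw [hc i hk]
      exact dvd_zero _

variable {r : ℕ} {e : Fin r → ℤ} (g : ∀ i, Y.A (e i))

/-- integral constants -/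
theorem psi_natCast (c : Fin r → ℕ) :
    psi g Z X (fun i => (c i : MvPolynomial (Fin n) ℤ_[p])) = ∑ i, c i • Z.c (e i) (g i) 1 := by
  unfold psi
  refine Finset.sum_congr rfl fun i _ => ?_
  rw [map_natCast, map_natCast, ← map_nsmul, nsmul_eq_mul, _root_.mul_one]

theorem HomD_natCast {k : ℤ} {c : Fin r → ℕ} (hc : ∀ i, e i ≠ k → c i = 0) :
    HomD p e k (fun i => (c i : MvPolynomial (Fin n) ℤ_[p])) := by
  intro i
  by_cases h : e i = k
  · rw [map_natCast, h, sub_self]
    have h1 : ((c i : ℕ) : KK p) = C (c i : ℤ_[p]) := by rw [map_natCast]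
    rw [h1]
    exact isWeightedHomogeneous_C _ _
  · change HK p (k - e i) (RN p n ((c i : ℕ) : MvPolynomial (Fin n) ℤ_[p]))
    rw [hc i h, Nat.cast_zero, map_zero]
    exact HK_zero _

section surj

variable (hR : Reg Z X)
  (hs : ∀ (k : ℤ) (x : Y.Pi k), ∃ c : Fin r → ℕ, (∀ i, e i ≠ k → c i = 0) ∧
      ∃ y ∈ Nm Z X (n + 1) k, Z.e k x = ∑ i, c i • Z.c (e i) (g i) 1 + Z.e k y)

include hR in
/-- `N_m ⊆ im ψ + p π` -/
theorem Nm_le {k : ℤ} (ih : ∀ k' < k, ∀ x : Y.Pi k', ∃ f : Fin r → MvPolynomial (Fin n) ℤ_[p],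
    HomD p e k' f ∧ Z.e k' x = psi g Z X f) {m : ℕ} (hm : m ≤ n + 1) (x : Y.Pi k)
    (hx : x ∈ Nm Z X m k) : ∃ (f : Fin r → MvPolynomial (Fin n) ℤ_[p]) (z : Y.Pi k),
      HomD p e k f ∧ Z.e k x = psi g Z X f + p • Z.e k z := by
  induction m generalizing x with
  | zero =>
    obtain ⟨b, hb⟩ := hx
    refine ⟨fun _ => 0, 0, fun i => by rw [map_zero]; exact HK_zero _, ?_⟩
    rw [hb, Fin.sum_univ_zero]
    unfold psi
    simp only [map_zero, Finset.sum_const_zero, smul_zero, add_zero]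
  | succ m IH =>
    obtain ⟨b, hb⟩ := hx
    rw [Fin.sum_univ_castSucc] at hb
    rcases Nat.eq_zero_or_pos m with h0 | h0
    · subst h0
      refine ⟨fun _ => 0, ?_⟩
      -- `b_0 p`
      have h1 : ∃ z : Y.Pi k, Z.e k z = Z.c _ (b (Fin.last 0)) 1 := by
        have h2 : ∀ j, k - sV p 0 = j → ∀ b : Y.A j, ∃ z : Y.Pi k, Z.e k z = Z.c j b 1 := by
          intro j hj b₁
          have e0 : k - sV p 0 = k := by simp [sV]
          obtain rfl : j = k := by omega
          exact ⟨Y.ev _ b₁, Z.ev _ b₁⟩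
        exact h2 _ rfl _
      obtain ⟨z, hz⟩ := h1
      refine ⟨z, fun i => by rw [map_zero]; exact HK_zero _, ?_⟩
      have h2 : X.eta (vK p 0) = p • (1 : GG p) := by
        change X.eta ((p : ℕ) : KK p) = _
        rw [map_natCast, nsmul_eq_mul, _root_.mul_one]
      rw [hb, hz, Fin.sum_univ_zero, zero_add]
      change Z.c _ (b (Fin.last 0)) (X.eta (vK p 0)) = _
      rw [h2, map_nsmul]
      unfold psi
      simp only [map_zero, Finset.sum_const_zero, zero_add]
    · -- `b_m v_m`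
      obtain ⟨m', rfl⟩ : ∃ m', m = m' + 1 := ⟨m - 1, by omega⟩
      have hpos := sV_pos p m'
      have h1 : ∀ a : Y.A (k - sV p (m' + 1)), ∃ (f : Fin r → MvPolynomial (Fin n) ℤ_[p])
          (z : Y.Pi k), HomD p e k f ∧
            Z.c _ a (X.eta (vK p (m' + 1))) = psi g Z X f + p • Z.e k z := by
        intro a
        obtain ⟨f, hf, hfa⟩ := ih (k - sV p (m' + 1)) (by omega) (Y.ev _ a)
        obtain ⟨a', ha', ha''⟩ := exists_psi' (X := X) (Z := Z) g hf
        have h2 : Y.ev _ (a - a') = 0 := by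
          rw [map_sub, sub_eq_zero]
          exact Z.e_inj _ (hfa.trans ha''.symm)
        obtain ⟨y, hy, hy'⟩ := hR.wd (m' + 1) (by omega) k (a - a') h2
        obtain ⟨f₁, z, hf₁, hz⟩ := IH (by omega) y hy
        refine ⟨fun i => f₁ i + vq p n (m' + 1) * f i, z, fun i => ?_, ?_⟩
        · rw [map_add, map_mul, RN_vq (by omega)]
          exact (hf₁ i).add (HK_cast (by ring) ((HK_vK (m' + 1)).mul (hf i)))
        · have h3 : Z.c _ a (X.eta (vK p (m' + 1))) = Z.e k y +
              Z.c _ a' (X.eta (vK p (m' + 1))) := by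
            rw [hy', map_sub, LinearMap.sub_apply, sub_add_cancel]
          rw [h3, hz, psi_add, ha']
          have h4 : psi g Z X (fun i => vq p n (m' + 1) * f i) =
              ∑ i, Z.c (e i) (g i) (X.eta (RN p n (f i)) * X.eta (vK p (m' + 1))) := by
            unfold psi
            refine Finset.sum_congr rfl fun i _ => ?_
            rw [map_mul, RN_vq (by omega), map_mul, mul_comm]
          rw [h4]
          abel
      obtain ⟨f₁, z₁, hf₁, hz₁⟩ := h1 (b (Fin.last (m' + 1)))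
      -- the rest
      have h5 : ∃ y ∈ Nm Z X (m' + 1) k, Z.e k y = ∑ i : Fin (m' + 1),
          Z.c _ (b i.castSucc) (X.eta (vK p i)) := by
        have h6 : ∃ y : Y.Pi k, Z.e k y = Z.c _ (b (Fin.last (m' + 1))) (X.eta (vK p (m' + 1))) := by
          obtain ⟨a', ha', ha''⟩ := exists_psi' (X := X) (Z := Z) g hf₁
          exact ⟨Y.ev k a' + p • z₁, by rw [map_add, ha'', map_nsmul]; exact hz₁.symm⟩
        obtain ⟨y, hy⟩ := h6
        have h7 : Z.e k (x - y) = ∑ i : Fin (m' + 1),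
            Z.c _ (b i.castSucc) (X.eta (vK p i)) := by
          rw [map_sub, hb, hy]
          exact add_sub_cancel_right _ _
        exact ⟨x - y, ⟨fun i => b i.castSucc, h7⟩, h7⟩
      obtain ⟨y, hy, hy'⟩ := h5
      obtain ⟨f₂, z₂, hf₂, hz₂⟩ := IH (by omega) y hy
      refine ⟨fun i => f₂ i + f₁ i, z₂ + z₁, fun i => ?_, ?_⟩
      · rw [map_add]
        exact (hf₂ i).add (hf₁ i)
      · rw [psi_add, map_add, smul_add, hb]
        change ∑ i : Fin (m' + 1), Z.c _ (b i.castSucc) (X.eta (vK p i)) +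
          Z.c _ (b (Fin.last (m' + 1))) (X.eta (vK p (m' + 1))) = _
        rw [← hy', hz₂]
        refine (congrArg (fun q => psi g Z X f₂ + p • Z.e k z₂ + q) hz₁).trans ?_
        abel

include hR hs in
/-- **`ψ` is onto** -/
theorem exists_psi_eq (k : ℤ) (x : Y.Pi k) : ∃ f : Fin r → MvPolynomial (Fin n) ℤ_[p],
    HomD p e k f ∧ Z.e k x = psi g Z X f := by
  obtain ⟨m₀, hm₀⟩ := hR.bdd
  -- induction on the degree
  have key : ∀ (N : ℕ) (k : ℤ), k < m₀ + N → ∀ x : Y.Pi k,
      ∃ f : Fin r → MvPolynomial (Fin n) ℤ_[p], HomD p e k f ∧ Z.e k x = psi g Z X f := by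
    intro N
    induction N with
    | zero =>
      intro k hk x
      refine ⟨fun _ => 0, fun i => by rw [map_zero]; exact HK_zero _, ?_⟩
      rw [hm₀ k (by push_cast at hk; omega) x]
      unfold psi
      simp only [map_zero, Finset.sum_const_zero]
    | succ N ih =>
      intro k hk x
      have h1 : ∀ k' < k, ∀ x : Y.Pi k', ∃ f : Fin r → MvPolynomial (Fin n) ℤ_[p],
          HomD p e k' f ∧ Z.e k' x = psi g Z X f := fun k' hk' => ih k' (by push_cast at hk; omega)
      -- one step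
      have step : ∀ x : Y.Pi k, ∃ (f : Fin r → MvPolynomial (Fin n) ℤ_[p]) (z : Y.Pi k),
          HomD p e k f ∧ Z.e k x = psi g Z X f + p • Z.e k z := by
        intro x
        obtain ⟨c, hc, y, hy, hx⟩ := hs k x
        obtain ⟨f, z, hf, hz⟩ := Nm_le g hR h1 le_rfl y hy
        refine ⟨fun i => (c i : MvPolynomial (Fin n) ℤ_[p]) + f i, z, fun i => ?_, ?_⟩
        · rw [map_add]
          exact (HomD_natCast hc i).add (hf i)
        · rw [psi_add, psi_natCast, hx, hz]
          abel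
      choose F P hF hP using step
      let xs : ℕ → Y.Pi k := fun l => Nat.rec x (fun _ y => P y) l
      have hxs : ∀ l, xs (l + 1) = P (xs l) := fun l => rfl
      choose G hG1 hG2 using fun i => exists_expansion (p := p) (n := n) (k - e i)
        (fun l => F (xs l) i) (fun l => hF (xs l) i)
      choose a ha ha' using fun m => exists_psi' (X := X) (Z := Z) g (k := k)
        (f := fun i => G i m) (fun i => hG1 i m)
      have h2 : ∀ m, xs m - Y.ev k (a m) = p • (xs (m + 1) - Y.ev k (a (m + 1))) := by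
        intro m
        apply Z.e_inj k
        rw [map_sub, map_nsmul, map_sub, ha', ha', hP (xs m), hxs]
        have h3 : psi g Z X (fun i => G i m) = psi g Z X (F (xs m)) +
            p • psi g Z X (fun i => G i (m + 1)) := by
          rw [← psi_nsmul, ← psi_add]
          exact congrArg _ (funext fun i => hG2 i m)
        rw [h3, smul_sub]
        abel
      have h3 := hR.cpl k (fun m => xs m - Y.ev k (a m)) h2 0
      refine ⟨fun i => G i 0, fun i => hG1 i 0, ?_⟩
      rw [← ha' 0]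
      congr 1
      exact sub_eq_zero.1 h3
  exact key (k - m₀ + 1).toNat k (by omega) x

end surj

section inj

variable (hR : Reg Z X)
  (hi : ∀ (k : ℤ) (c : Fin r → ℕ), (∀ i, e i ≠ k → c i = 0) →
      (∃ y ∈ Nm Z X (n + 1) k, ∑ i, c i • Z.c (e i) (g i) 1 = Z.e k y) → ∀ i, p ∣ c i)

include hR hi in
/-- if `ψ(f) ∈ N_{n+1}` then `f ∈ (v_0, …, v_n)` -/
theorem In_top {k : ℤ} {f : Fin r → MvPolynomial (Fin n) ℤ_[p]} (hf : HomD p e k f)
    (h : ∃ x ∈ Nm Z X (n + 1) k, Z.e k x = psi g Z X f) (i : Fin r) : In (n + 1) (k - e i) (f i) := by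
  classical
  refine In_of_const (hf i) ?_
  -- approximate the constant coefficients
  have h1 : ∀ i, ∃ c : ℕ, (p : ℤ_[p]) ∣ coeff 0 (f i) - c := by
    intro i
    obtain ⟨c, -, hc⟩ := PadicInt.exists_mem_range (coeff 0 (f i))
    refine ⟨c, ?_⟩
    rw [PadicInt.maximalIdeal_eq_span_p, Ideal.mem_span_singleton] at hc
    exact hc
  choose c₀ hc₀ using h1
  let c : Fin r → ℕ := fun i => if e i = k then c₀ i else 0
  have hc : ∀ i, e i ≠ k → c i = 0 := fun i hi => if_neg hi
  have hc' : ∀ i, (p : ℤ_[p]) ∣ coeff 0 (f i) - c i := by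
    intro i
    by_cases hik : e i = k
    · have h2 : c i = c₀ i := if_pos hik
      rw [h2]
      exact hc₀ i
    · rw [hc i hik, Nat.cast_zero, sub_zero]
      have h3 : coeff 0 (f i) = 0 := by
        by_contra hne
        have h4 := (HK_RN_iff p).1 (hf i) hne
        rw [map_zero] at h4
        omega
      rw [h3]
      exact dvd_zero _
  have h2 : ∀ i, In (n + 1) (k - e i) (f i - (c i : MvPolynomial (Fin n) ℤ_[p])) := by
    intro i
    refine In_of_const ?_ ?_
    · rw [map_sub]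
      exact (hf i).sub (HomD_natCast hc i)
    · rw [coeff_sub]
      have h3 : coeff 0 ((c i : ℕ) : MvPolynomial (Fin n) ℤ_[p]) = (c i : ℤ_[p]) := by
        rw [← map_natCast (C (σ := Fin n) (R := ℤ_[p])), coeff_zero_C]
      rw [h3]
      exact hc' i
  obtain ⟨y, hy, hy'⟩ := psi_mem_Nm (Z := Z) (X := X) g le_rfl (fun i => by
    rw [map_sub]
    exact (hf i).sub (HomD_natCast hc i)) h2
  obtain ⟨x, hx, hx'⟩ := h
  have h3 := hi k c hc ⟨x - y, AddSubgroup.sub_mem _ hx hy, by
    rw [map_sub, hx', hy', psi_sub, psi_natCast]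
    abel⟩ i
  have h4 := hc' i
  have h5 : (p : ℤ_[p]) ∣ (c i : ℤ_[p]) := by
    obtain ⟨d, hd⟩ := h3
    rw [hd]
    push_cast
    exact Dvd.intro _ rfl
  have h6 := dvd_add h4 h5
  rwa [sub_add_cancel] at h6

include hR hi in
/-- if `ψ(f) ∈ N_m` then `f ∈ (v_0, …, v_{m-1})`, `m ≥ 1` -/
theorem In_of_psi {m : ℕ} (hm1 : 1 ≤ m) (hm : m ≤ n + 1) (k : ℤ)
    (f : Fin r → MvPolynomial (Fin n) ℤ_[p]) (hf : HomD p e k f)
    (h : ∃ x ∈ Nm Z X m k, Z.e k x = psi g Z X f) (i : Fin r) : In m (k - e i) (f i) := by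
  classical
  induction hm using Nat.decreasingInduction generalizing k f i with
  | self => exact In_top g hR hi hf h i
  | of_succ m hm IH =>
    -- induction on the degree
    obtain ⟨B, hB⟩ : ∃ B : ℤ, ∀ i, B ≤ e i := by
      refine ⟨-∑ i, |e i|, fun i => ?_⟩
      have h1 : |e i| ≤ ∑ i, |e i| :=
        Finset.single_le_sum (f := fun i => |e i|) (fun _ _ => abs_nonneg _) (Finset.mem_univ i)
      have h2 := neg_abs_le (e i)
      linarith
    obtain ⟨m', rfl⟩ : ∃ m', m = m' + 1 := ⟨m - 1, by omega⟩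
    have hpos := sV_pos p m'
    obtain ⟨N, hN⟩ : ∃ N : ℕ, k < B + N := ⟨(k - B + 1).toNat, by omega⟩
    induction N generalizing k f i with
    | zero =>
      have h1 : f i = 0 := by
        apply RN_injective p
        rw [map_zero]
        exact HK_neg_eq_zero (by have := hB i; push_cast at hN; omega) (hf i)
      rw [h1]
      exact ⟨fun _ => 0, fun a => by rw [map_zero]; exact HK_zero _, by simp⟩
    | succ N ihN =>
      obtain ⟨x, hx, hx'⟩ := h
      have h1 := fun i => IH (by omega) k f hf ⟨x, Nm_mono (by omega) hx, hx'⟩ i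
      choose h h2 h3 using h1
      -- the part in `(v_0, …, v_{m-1})`
      let u : Fin r → MvPolynomial (Fin n) ℤ_[p] := fun i =>
        ∑ a : Fin (m' + 1), vq p n a * h i a.castSucc
      let w : Fin r → MvPolynomial (Fin n) ℤ_[p] := fun i => h i (Fin.last (m' + 1))
      have h4 : ∀ i, f i = u i + vq p n (m' + 1) * w i := by
        intro i
        rw [h3 i, Fin.sum_univ_castSucc]
        rfl
      have hu : ∀ i, In (m' + 1) (k - e i) (u i) := fun i =>
        ⟨fun a => h i a.castSucc, fun a => h2 i a.castSucc, rfl⟩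
      have hw : HomD p e (k - sV p (m' + 1)) w := fun i => HK_cast (by simp; ring) (h2 i (Fin.last (m' + 1)))
      have hu' : HomD p e k u := by
        intro i
        have h5 : RN p n (u i) = RN p n (f i) - RN p n (vq p n (m' + 1) * w i) := by
          rw [h4 i, map_add, add_sub_cancel_right]
        rw [h5]
        refine (hf i).sub ?_
        rw [map_mul, RN_vq (by omega)]
        exact HK_cast (by ring) ((HK_vK (m' + 1)).mul (hw i))
      obtain ⟨y, hy, hy'⟩ := psi_mem_Nm (Z := Z) (X := X) g (by omega) hu' hu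
      obtain ⟨a, ha, ha'⟩ := exists_psi' (X := X) (Z := Z) g hw
      have h6 : Z.e k (x - y) = Z.c _ a (X.eta (vK p (m' + 1))) := by
        rw [map_sub, hx', hy', ← psi_sub, ha]
        unfold psi
        refine Finset.sum_congr rfl fun i _ => ?_
        have h41 : f i - u i = vq p n (m' + 1) * w i := by rw [h4 i, add_sub_cancel_left]
        change Z.c (e i) (g i) (X.eta (RN p n (f i - u i))) = _
        rw [h41, map_mul, RN_vq (by omega), map_mul, mul_comm]
      have h7 := hR.inj (m' + 1) (by omega) k a (x - y) (AddSubgroup.sub_mem _ hx hy) h6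
      have h8 := ihN (k - sV p (m' + 1)) w hw i ⟨Y.ev _ a, h7, ha'⟩ (by push_cast at hN; omega)
      have h9 := h8.mul (p := p) (b := m' + 1) (by omega)
      rw [h4 i]
      refine (hu i).add ?_
      have e1 : k - sV p (m' + 1) - e i + sV p (m' + 1) = k - e i := by ring
      rwa [e1] at h9

include hR hi in
/-- **`ψ` is injective** -/
theorem eq_zero_of_psi {k : ℤ} {f : Fin r → MvPolynomial (Fin n) ℤ_[p]} (hf : HomD p e k f)
    (h : psi g Z X f = 0) (i : Fin r) : f i = 0 := by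
  classical
  have step : ∀ f : Fin r → MvPolynomial (Fin n) ℤ_[p], HomD p e k f → psi g Z X f = 0 →
      ∃ f' : Fin r → MvPolynomial (Fin n) ℤ_[p], HomD p e k f' ∧ psi g Z X f' = 0 ∧
        ∀ i, f i = (p : MvPolynomial (Fin n) ℤ_[p]) * f' i := by
    intro f hf h
    have h1 := fun i => In_of_psi g hR hi (m := 1) le_rfl (by omega) k f hf
      ⟨0, AddSubgroup.zero_mem _, by rw [map_zero, h]⟩ i
    choose u hu1 hu2 using h1
    have e0 : sV p 0 = 0 := by simp [sV]
    have h2 : ∀ i, f i = (p : MvPolynomial (Fin n) ℤ_[p]) * u i 0 := by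
      intro i
      rw [hu2 i, Fin.sum_univ_one]
      rfl
    have h3 : HomD p e k fun i => u i 0 := by
      intro i
      refine HK_cast ?_ (hu1 i 0)
      rw [Fin.val_zero, e0, sub_zero]
    refine ⟨fun i => u i 0, h3, ?_, h2⟩
    have h4 : HomD p e (k - sV p 0) fun i => u i 0 := by
      intro i
      refine HK_cast ?_ (h3 i)
      rw [e0]; ring
    obtain ⟨a, ha, ha'⟩ := exists_psi' (X := X) (Z := Z) g h4
    have h5 : Z.e k 0 = Z.c _ a (X.eta (vK p 0)) := by
      rw [map_zero, ha, ← h]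
      unfold psi
      refine Finset.sum_congr rfl fun i _ => ?_
      conv_lhs => rw [h2 i]
      rw [map_mul, map_natCast, map_mul, mul_comm]
      rfl
    obtain ⟨b, hb⟩ := hR.inj 0 (by omega) k a 0 (AddSubgroup.zero_mem _) h5
    rw [← ha', hb, Fin.sum_univ_zero]
  have key : ∀ N : ℕ, ∃ f' : Fin r → MvPolynomial (Fin n) ℤ_[p], HomD p e k f' ∧
      psi g Z X f' = 0 ∧ ∀ i, f i = (p : MvPolynomial (Fin n) ℤ_[p]) ^ N * f' i := by
    intro N
    induction N with
    | zero => exact ⟨f, hf, h, fun i => by rw [pow_zero, _root_.one_mul]⟩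
    | succ N ih =>
      obtain ⟨f', h1, h2, h3⟩ := ih
      obtain ⟨f'', h4, h5, h6⟩ := step f' h1 h2
      exact ⟨f'', h4, h5, fun i => by rw [h3 i, h6 i, pow_succ]; ring⟩
  ext E
  rw [coeff_zero]
  by_contra hne
  have h1 : ∀ N : ℕ, (p : ℤ_[p]) ^ N ∣ coeff E (f i) := by
    intro N
    obtain ⟨f', -, -, hf'⟩ := key N
    rw [hf' i, ← map_natCast (C (σ := Fin n) (R := ℤ_[p])), ← map_pow, coeff_C_mul]
    exact Dvd.intro _ rfl
  have h2 : ¬ IsUnit (p : ℤ_[p]) := PadicInt.p_nonunit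
  obtain ⟨N, hN⟩ := FiniteMultiplicity.of_not_isUnit h2 hne
  exact hN (h1 _)

end inj

/-- **generators of a regular even system** -/
theorem exists_gens (hR : Reg Z X) : ∃ (r : ℕ) (e : Fin r → ℤ), Nonempty (Gens Z X r e) := by
  obtain ⟨r, e, g, hs, hi⟩ := exists_family hR
  refine ⟨r, e, ⟨⟨g, fun k x => ?_⟩⟩⟩
  obtain ⟨f, hf, hx⟩ := exists_psi_eq g hR hs k x
  refine ⟨f, ⟨hf, hx⟩, fun f' ⟨hf', hx'⟩ => ?_⟩
  funext i
  have h1 := eq_zero_of_psi g hR hi (k := k) (f := fun i => f' i - f i) (fun i => by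
    rw [map_sub]
    exact (hf' i).sub (hf i)) (by
      rw [psi_sub, sub_eq_zero]
      exact hx'.symm.trans hx) i
  exact sub_eq_zero.1 h1

end Vale.Agent.P221.H460
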