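import Vale.Agent.P221.T.H746.SB

/-!
# P221 (helper460): coordinates of `[Σ^k BP, X]` for `X` even and regular

* `OpX O` : more facts on the operations of `BP`;
* `Ev O Y M` : the system of an even spectrum `X`, `M = π_* (R ⊗ X)`, `e` the Hurewicz map;
* `Gens` : generators `g_i ∈ [Σ^{e_i} BP, X]` such that `π_* X` is free over `ℤ_p[v_1, …, v_n]`;
* `cf` : the coordinates of `a ∈ [Σ^k BP, X]` with respect to the generators.
-/

open MvPolynomial

set_option linter.unusedSectionVars false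

namespace Vale.Agent.P221.H460

open Vale.Agent.P221.T Vale.Agent.P221.T.H746

variable {p : ℕ} [hp : Fact p.Prime] {n : ℕ}

/-- more on the operations of `BP` -/
structure OpX {ld : Lead p n} {S : Src p n} (O : OpAlg ld S) where
  /-- composition -/
  comp : ∀ {m m' l : ℤ} (_ : m + m' = l) (γ : S.E m) (δ : S.E m'),
    ∃ ε : S.E l, O.T l ε = O.T m γ ∘ₗ O.T m' δ
  /-- the right unit -/
  eta : KK p →+* GG p
  eta_zero : ∀ f : KK p, coeff 0 (eta f) = f
  mult : ∀ (k : ℤ) (f : KK p), HK p k f → ∃ γ : S.E k, ∀ z, O.T k γ z = eta f * z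
  /-- the lowest coordinates -/
  low : ∀ (m c : ℤ) (γ : S.E m), (∀ E, dT p E < c → coeff 0 (O.T m γ (monomial E 1)) = 0) →
    (∀ E, dT p E < c → O.T m γ (monomial E 1) = 0) ∧
      ∀ E, dT p E = c → O.T m γ (monomial E 1) = eta (coeff 0 (O.T m γ (monomial E 1)))
  /-- operations with prescribed coordinates -/
  ex : ∀ (m t : ℤ) (c : (ℕ →₀ ℕ) → KK p), (∀ E, HK p (m + dT p E) (c E)) →
    (∀ E, c E ∈ Ip p t) → ∃ γ : S.E m, γ ∈ S.F t m ∧
      ∀ E, coeff 0 (O.T m γ (monomial E 1)) = c E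

/-- the system of an even spectrum -/
structure Ev {ld : Lead p n} {S : Src p n} (O : OpAlg ld S) (Y : Sys S) (M : Type)
    [AddCommGroup M] [Module (KK p) M] where
  /-- the coordinates -/
  c : ∀ k, Y.A k →+ (GG p →ₗ[KK p] M)
  inj : ∀ k, Function.Injective (c k)
  act : ∀ {k m k' : ℤ} (h : k + m = k') (a : Y.A k) (γ : S.E m),
    c k' (Y.act h a γ) = c k a ∘ₗ O.T m γ
  /-- the Hurewicz map -/
  e : ∀ k, Y.Pi k →+ M
  e_inj : ∀ k, Function.Injective (e k)
  ev : ∀ (k : ℤ) (a : Y.A k), e k (Y.ev k a) = c k a 1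
  /-- the lowest coordinates are in the image of the Hurewicz map -/
  low : ∀ (k c₀ : ℤ) (a : Y.A k), (∀ E, dT p E < c₀ → c k a (monomial E 1) = 0) →
    ∀ E, dT p E = c₀ → ∃ x : Y.Pi (k + c₀), e _ x = c k a (monomial E 1)

/-- generators -/
structure Gens {ld : Lead p n} {S : Src p n} {O : OpAlg ld S} {Y : Sys S} {M : Type}
    [AddCommGroup M] [Module (KK p) M] (Z : Ev O Y M) (X : OpX O) (r : ℕ) (e : Fin r → ℤ) where
  /-- the generators -/
  g : ∀ i, Y.A (e i)
  bij : ∀ (k : ℤ) (x : Y.Pi k), ∃! f : Fin r → MvPolynomial (Fin n) ℤ_[p],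
    (∀ i, HK p (k - e i) (RN p n (f i))) ∧ Z.e k x = ∑ i, Z.c (e i) (g i) (X.eta (RN p n (f i)))

section

variable {ld : Lead p n} {S : Src p n} {O : OpAlg ld S}

/-! ### operations -/

section opx

variable (X : OpX O)

theorem monoExt {M : Type} [AddCommGroup M] [Module (KK p) M] {f g : GG p →ₗ[KK p] M}
    (h : ∀ E, f (monomial E 1) = g (monomial E 1)) : f = g := by
  refine (basisMonomials ℕ (KK p)).ext fun E => ?_
  rw [coe_basisMonomials]
  exact h E

include X in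
/-- operations with the same coordinates in degrees `< c` -/
theorem T_eq_of_low {m c : ℤ} {γ γ' : S.E m}
    (h : ∀ E, dT p E < c → coeff 0 (O.T m γ (monomial E 1)) = coeff 0 (O.T m γ' (monomial E 1))) :
    ∀ E, dT p E < c → O.T m γ (monomial E 1) = O.T m γ' (monomial E 1) := by
  have h1 := (X.low m c (γ - γ') fun E hE => by
    rw [map_sub, LinearMap.sub_apply, coeff_sub, h E hE, sub_self]).1
  intro E hE
  have h2 := h1 E hE
  rw [map_sub, LinearMap.sub_apply] at h2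
  exact sub_eq_zero.1 h2

include X in
theorem T_eq {m : ℤ} {γ γ' : S.E m}
    (h : ∀ E, coeff 0 (O.T m γ (monomial E 1)) = coeff 0 (O.T m γ' (monomial E 1))) :
    O.T m γ = O.T m γ' :=
  monoExt fun E => T_eq_of_low X (c := dT p E + 1) (fun E' _ => h E') E (by omega)

include X in
/-- the filtration is visible on the coordinates -/
theorem mem_F_of_coord {m t : ℤ} {γ : S.E m}
    (h : ∀ E, coeff 0 (O.T m γ (monomial E 1)) ∈ Ip p t) : γ ∈ S.F t m := by
  obtain ⟨δ, hδ, hδ'⟩ := X.ex m t (fun E => coeff 0 (O.T m γ (monomial E 1)))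
    (fun E => by
      have h1 := O.homog m γ E 0
      rwa [dT_zero, sub_zero] at h1) h
  rw [O.F_iff] at hδ ⊢
  rw [← T_eq X hδ']
  exact hδ

theorem HK_coord {m : ℤ} (γ : S.E m) (E : ℕ →₀ ℕ) :
    HK p (m + dT p E) (coeff 0 (O.T m γ (monomial E 1))) := by
  have h1 := O.homog m γ E 0
  rwa [dT_zero, sub_zero] at h1

theorem HK_neg_eq_zero {k : ℤ} (hk : k < 0) {f : KK p} (hf : HK p k f) : f = 0 := by
  ext E
  rw [coeff_zero]
  by_contra hne
  have h1 := hf hne
  have h2 : 0 ≤ Finsupp.weight (fun i => sV p (i + 1)) E := by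
    rw [Finsupp.weight_apply]
    exact Finsupp.sum_nonneg fun j _ => smul_nonneg (Nat.zero_le _) (sV_nonneg p _)
  omega

theorem dT_nonneg (E : ℕ →₀ ℕ) : 0 ≤ dT p E := by
  unfold dT
  rw [Finsupp.weight_apply]
  exact Finsupp.sum_nonneg fun j _ => smul_nonneg (Nat.zero_le _) (sV_nonneg p _)

end opx

/-! ### combinations of the generators -/

variable {Y : Sys S} {M : Type} [AddCommGroup M] [Module (KK p) M] {Z : Ev O Y M} {X : OpX O}
  {r : ℕ} {e : Fin r → ℤ} (G : Gens Z X r e)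

/-- `∑ g_i γ_i` -/
def comb (k : ℤ) (γ : ∀ i, S.E (k - e i)) : Y.A k :=
  ∑ i, Y.act (add_sub_cancel (e i) k) (G.g i) (γ i)

theorem c_comb {k : ℤ} (γ : ∀ i, S.E (k - e i)) (z : GG p) :
    Z.c k (comb G k γ) z = ∑ i, Z.c (e i) (G.g i) (O.T _ (γ i) z) := by
  unfold comb
  rw [map_sum, LinearMap.sum_apply]
  refine Finset.sum_congr rfl fun i _ => ?_
  rw [Z.act]
  rfl

theorem comb_sub {k : ℤ} (γ γ' : ∀ i, S.E (k - e i)) :
    comb G k (fun i => γ i - γ' i) = comb G k γ - comb G k γ' := by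
  unfold comb
  rw [← Finset.sum_sub_distrib]
  exact Finset.sum_congr rfl fun i _ => map_sub _ _ _

theorem comb_add {k : ℤ} (γ γ' : ∀ i, S.E (k - e i)) :
    comb G k (fun i => γ i + γ' i) = comb G k γ + comb G k γ' := by
  unfold comb
  rw [← Finset.sum_add_distrib]
  exact Finset.sum_congr rfl fun i _ => map_add _ _ _

theorem comb_nsmul {k : ℤ} (N : ℕ) (γ : ∀ i, S.E (k - e i)) :
    comb G k (fun i => N • γ i) = N • comb G k γ := by
  unfold comb
  rw [Finset.smul_sum]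
  exact Finset.sum_congr rfl fun i _ => map_nsmul _ _ _

theorem comb_eq_of_T {k : ℤ} {γ γ' : ∀ i, S.E (k - e i)} (h : ∀ i, O.T _ (γ i) = O.T _ (γ' i)) :
    comb G k γ = comb G k γ' := by
  apply Z.inj k
  refine LinearMap.ext fun z => ?_
  rw [c_comb, c_comb]
  exact Finset.sum_congr rfl fun i _ => by rw [h]

/-- `γ` has the coordinates `f` -/
def Has (k : ℤ) (γ : ∀ i, S.E (k - e i)) (f : Fin r → (ℕ →₀ ℕ) → MvPolynomial (Fin n) ℤ_[p]) :
    Prop := ∀ i E, coeff 0 (O.T _ (γ i) (monomial E 1)) = RN p n (f i E)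

/-- homogeneous -/
def Hom (p : ℕ) [Fact p.Prime] {n r : ℕ} (e : Fin r → ℤ) (k : ℤ)
    (f : Fin r → (ℕ →₀ ℕ) → MvPolynomial (Fin n) ℤ_[p]) : Prop :=
  ∀ i E, HK p (k - e i + dT p E) (RN p n (f i E))

theorem Hom.add {k : ℤ} {f f' : Fin r → (ℕ →₀ ℕ) → MvPolynomial (Fin n) ℤ_[p]}
    (h : Hom p e k f) (h' : Hom p e k f') : Hom p e k (fun i E => f i E + f' i E) := fun i E => by
  rw [map_add]
  exact (weightedHomogeneousSubmodule ℤ_[p] (fun i : ℕ => sV p (i + 1)) _).add_mem (h i E) (h' i E)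

theorem Hom.sub {k : ℤ} {f f' : Fin r → (ℕ →₀ ℕ) → MvPolynomial (Fin n) ℤ_[p]}
    (h : Hom p e k f) (h' : Hom p e k f') : Hom p e k (fun i E => f i E - f' i E) := fun i E => by
  rw [map_sub]
  exact (weightedHomogeneousSubmodule ℤ_[p] (fun i : ℕ => sV p (i + 1)) _).sub_mem (h i E) (h' i E)

include X in
theorem exists_has {k : ℤ} {f : Fin r → (ℕ →₀ ℕ) → MvPolynomial (Fin n) ℤ_[p]}
    (h : Hom p e k f) {t : Fin r → ℤ} (ht : ∀ i E, RN p n (f i E) ∈ Ip p (t i)) :
    ∃ γ : ∀ i, S.E (k - e i), Has (O := O) k γ f ∧ ∀ i, γ i ∈ S.F (t i) _ := by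
  choose γ hγ hγ' using fun i => X.ex (k - e i) (t i) (fun E => RN p n (f i E)) (h i) (ht i)
  exact ⟨γ, hγ', hγ⟩

include X in
theorem exists_has' {k : ℤ} {f : Fin r → (ℕ →₀ ℕ) → MvPolynomial (Fin n) ℤ_[p]}
    (h : Hom p e k f) : ∃ γ : ∀ i, S.E (k - e i), Has (O := O) k γ f := by
  obtain ⟨γ, hγ, -⟩ := exists_has (O := O) (X := X) h (t := fun _ => 0) fun i E => Ip_of_nonpos p le_rfl _
  exact ⟨γ, hγ⟩

/-- the value in degrees `< c` only depends on the coordinates in degrees `< c` -/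
theorem c_comb_low {k c : ℤ} {γ γ' : ∀ i, S.E (k - e i)}
    (h : ∀ i E, dT p E < c → coeff 0 (O.T _ (γ i) (monomial E 1)) =
      coeff 0 (O.T _ (γ' i) (monomial E 1))) (E : ℕ →₀ ℕ) (hE : dT p E < c) :
    Z.c k (comb G k γ) (monomial E 1) = Z.c k (comb G k γ') (monomial E 1) := by
  rw [c_comb, c_comb]
  exact Finset.sum_congr rfl fun i _ => by rw [T_eq_of_low X (h i) E hE]

theorem comb_eq_of_coord {k : ℤ} {γ γ' : ∀ i, S.E (k - e i)}
    (h : ∀ i E, coeff 0 (O.T _ (γ i) (monomial E 1)) = coeff 0 (O.T _ (γ' i) (monomial E 1))) :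
    comb G k γ = comb G k γ' := comb_eq_of_T G fun i => T_eq X (h i)

/-- **uniqueness**: if the values in degrees `< c` vanish then the coordinates in degrees `< c`
vanish -/
theorem coord_eq_zero {k c : ℤ} {f : Fin r → (ℕ →₀ ℕ) → MvPolynomial (Fin n) ℤ_[p]}
    (hf : Hom p e k f) {γ : ∀ i, S.E (k - e i)} (hγ : Has (O := O) k γ f)
    (h : ∀ E, dT p E < c → Z.c k (comb G k γ) (monomial E 1) = 0) (i : Fin r) (E : ℕ →₀ ℕ)
    (hE : dT p E < c) : f i E = 0 := by
  obtain ⟨N, hN⟩ : ∃ N : ℕ, dT p E = N := ⟨(dT p E).toNat, by rw [Int.toNat_of_nonneg (dT_nonneg E)]⟩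
  induction N using Nat.strong_induction_on generalizing i E with
  | _ N ih =>
  have h1 : ∀ i E', dT p E' < N → coeff 0 (O.T _ (γ i) (monomial E' 1)) = 0 := by
    intro i E' hE'
    rw [hγ, ih (dT p E').toNat (by have := dT_nonneg (p := p) E'; omega) i E' (by omega)
      (by have := dT_nonneg (p := p) E'; omega), map_zero]
  have h2 : ∀ i, O.T _ (γ i) (monomial E 1) = X.eta (RN p n (f i E)) := by
    intro i
    rw [(X.low _ N (γ i) (h1 i)).2 E hN, hγ]
  have h3 := h E hE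
  rw [c_comb, Finset.sum_congr rfl fun i _ => by rw [h2 i]] at h3
  obtain ⟨f₀, -, hu⟩ := G.bij (k + dT p E) 0
  have h4 := hu (fun i => f i E) ⟨fun i => by
    have := hf i E
    exact HK_cast (by ring) this, by rw [map_zero]; exact h3.symm⟩
  have h5 := hu (fun _ => 0) ⟨fun i => by rw [map_zero]; exact HK_zero _, by
    rw [map_zero]
    refine (Finset.sum_eq_zero fun i _ => ?_).symm
    rw [map_zero, map_zero, map_zero]⟩
  exact congrFun (h4.trans h5.symm) i

/-- **existence**, up to degree `N` -/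
theorem exists_coord_low {k : ℤ} (a : Y.A k) (N : ℕ) :
    ∃ f : Fin r → (ℕ →₀ ℕ) → MvPolynomial (Fin n) ℤ_[p], Hom p e k f ∧
      ∀ γ : ∀ i, S.E (k - e i), Has (O := O) k γ f →
        ∀ E, dT p E < N → Z.c k a (monomial E 1) = Z.c k (comb G k γ) (monomial E 1) := by
  classical
  induction N with
  | zero =>
    refine ⟨fun _ _ => 0, fun i E => by rw [map_zero]; exact HK_zero _, fun γ _ E hE => ?_⟩
    have := dT_nonneg (p := p) E
    exact absurd hE (by push_cast; omega)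
  | succ N ih =>
    obtain ⟨f, hf, hf'⟩ := ih
    obtain ⟨γ, hγ⟩ := exists_has' (O := O) (X := X) hf
    have h1 : ∀ E, dT p E < N → Z.c k (a - comb G k γ) (monomial E 1) = 0 := by
      intro E hE
      rw [map_sub, LinearMap.sub_apply, hf' γ hγ E hE, sub_self]
    have h2 := Z.low k N (a - comb G k γ) h1
    have h3 : ∀ E, dT p E = N → ∃ f' : Fin r → MvPolynomial (Fin n) ℤ_[p],
        (∀ i, HK p (k + N - e i) (RN p n (f' i))) ∧
          Z.c k (a - comb G k γ) (monomial E 1) =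
            ∑ i, Z.c (e i) (G.g i) (X.eta (RN p n (f' i))) := by
      intro E hE
      obtain ⟨x, hx⟩ := h2 E hE
      obtain ⟨f', ⟨h4, h5⟩, -⟩ := G.bij (k + N) x
      exact ⟨f', h4, hx.symm.trans h5⟩
    choose f' hf1 hf2 using h3
    let u : Fin r → (ℕ →₀ ℕ) → MvPolynomial (Fin n) ℤ_[p] := fun i E =>
      if h : dT p E = N then f' E h i else 0
    have hu : Hom p e k u := by
      intro i E
      by_cases h : dT p E = N
      · have h6 : u i E = f' E h i := dif_pos h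
        rw [h6]
        exact HK_cast (by omega) (hf1 E h i)
      · have h6 : u i E = 0 := dif_neg h
        rw [h6, map_zero]
        exact HK_zero _
    obtain ⟨δ, hδ⟩ := exists_has' (O := O) (X := X) hu
    refine ⟨fun i E => f i E + u i E, hf.add hu, fun γ' hγ' E hE => ?_⟩
    have h7 : comb G k γ' = comb G k γ + comb G k δ := by
      rw [← comb_add]
      refine comb_eq_of_coord G fun i E => ?_
      rw [hγ', map_add (O.T _), LinearMap.add_apply, coeff_add, hγ, hδ, map_add]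
    -- the values of `δ`
    have h8 : ∀ i E, dT p E < N → coeff 0 (O.T _ (δ i) (monomial E 1)) = 0 := by
      intro i E hE
      rw [hδ]
      have h6 : u i E = 0 := dif_neg (by omega)
      rw [h6, map_zero]
    rw [h7, map_add, LinearMap.add_apply]
    by_cases hE' : dT p E = N
    · have h9 : Z.c k (comb G k δ) (monomial E 1) = Z.c k (a - comb G k γ) (monomial E 1) := by
        rw [hf2 E hE', c_comb]
        refine Finset.sum_congr rfl fun i _ => ?_
        rw [(X.low _ N (δ i) (h8 i)).2 E hE', hδ]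
        have h6 : u i E = f' E hE' i := dif_pos hE'
        rw [h6]
      rw [h9, map_sub, LinearMap.sub_apply, add_sub_cancel]
    · have h10 : dT p E < N := by push_cast at hE; omega
      have h9 : Z.c k (comb G k δ) (monomial E 1) = 0 := by
        rw [c_comb]
        refine Finset.sum_eq_zero fun i _ => ?_
        rw [(X.low _ N (δ i) (h8 i)).1 E h10, map_zero]
      rw [h9, add_zero]
      exact hf' γ hγ E h10

/-- **existence of coordinates** -/
theorem exists_coord {k : ℤ} (a : Y.A k) :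
    ∃ f : Fin r → (ℕ →₀ ℕ) → MvPolynomial (Fin n) ℤ_[p], Hom p e k f ∧
      ∀ γ : ∀ i, S.E (k - e i), Has (O := O) k γ f → a = comb G k γ := by
  choose f hf hf' using exists_coord_low G a
  -- the approximations agree
  have h1 : ∀ N N' : ℕ, N ≤ N' → ∀ i E, dT p E < N → f N i E = f N' i E := by
    intro N N' hN i E hE
    obtain ⟨γ, hγ⟩ := exists_has' (O := O) (X := X) (hf N)
    obtain ⟨γ', hγ'⟩ := exists_has' (O := O) (X := X) (hf N')
    have h2 := coord_eq_zero G (c := N) ((hf N).sub (hf N')) (γ := fun i => γ i - γ' i)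
      (fun i E => by rw [map_sub (O.T _), LinearMap.sub_apply, coeff_sub, hγ, hγ', map_sub])
      (fun E hE => by
        rw [comb_sub, map_sub, LinearMap.sub_apply, ← hf' N γ hγ E hE,
          ← hf' N' γ' hγ' E (by omega), sub_self]) i E hE
    exact sub_eq_zero.1 h2
  let u : Fin r → (ℕ →₀ ℕ) → MvPolynomial (Fin n) ℤ_[p] := fun i E => f ((dT p E).toNat + 1) i E
  have hu : Hom p e k u := fun i E => hf _ i E
  have hu' : ∀ N : ℕ, ∀ i E, dT p E < N → u i E = f N i E := by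
    intro N i E hE
    have h3 := dT_nonneg (p := p) E
    exact h1 _ N (by omega) i E (by omega)
  refine ⟨u, hu, fun γ hγ => ?_⟩
  apply Z.inj k
  refine monoExt fun E => ?_
  have h3 := dT_nonneg (p := p) E
  obtain ⟨γ', hγ'⟩ := exists_has' (O := O) (X := X) (hf ((dT p E).toNat + 1))
  rw [hf' _ γ' hγ' E (by omega)]
  refine c_comb_low G (c := ((dT p E).toNat + 1 : ℕ)) (fun i E' hE' => ?_) E (by omega)
  rw [hγ, hγ', hu' _ i E' hE']

/-- the coordinates -/
noncomputable def cf (k : ℤ) (a : Y.A k) : Fin r → (ℕ →₀ ℕ) → MvPolynomial (Fin n) ℤ_[p] :=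
  (exists_coord G a).choose

theorem cf_hom (k : ℤ) (a : Y.A k) : Hom p e k (cf G k a) := (exists_coord G a).choose_spec.1

theorem cf_spec {k : ℤ} {a : Y.A k} {γ : ∀ i, S.E (k - e i)} (h : Has (O := O) k γ (cf G k a)) :
    a = comb G k γ := (exists_coord G a).choose_spec.2 γ h

theorem exists_cf (k : ℤ) (a : Y.A k) :
    ∃ γ : ∀ i, S.E (k - e i), Has (O := O) k γ (cf G k a) ∧ a = comb G k γ := by
  obtain ⟨γ, hγ⟩ := exists_has' (O := O) (X := X) (cf_hom G k a)
  exact ⟨γ, hγ, cf_spec G hγ⟩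

/-- uniqueness, in degrees `< c` -/
theorem cf_eq_low {k c : ℤ} {a : Y.A k} {f : Fin r → (ℕ →₀ ℕ) → MvPolynomial (Fin n) ℤ_[p]}
    (hf : Hom p e k f) {γ : ∀ i, S.E (k - e i)} (hγ : Has (O := O) k γ f)
    (h : ∀ E, dT p E < c → Z.c k a (monomial E 1) = Z.c k (comb G k γ) (monomial E 1))
    (i : Fin r) (E : ℕ →₀ ℕ) (hE : dT p E < c) : cf G k a i E = f i E := by
  obtain ⟨γ', hγ', ha⟩ := exists_cf G k a
  have h2 := coord_eq_zero G (c := c) ((cf_hom G k a).sub hf) (γ := fun i => γ' i - γ i)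
    (fun i E => by rw [map_sub (O.T _), LinearMap.sub_apply, coeff_sub, hγ, hγ', map_sub])
    (fun E hE => by
      rw [comb_sub, map_sub, LinearMap.sub_apply, ← h E hE, ← ha, sub_self]) i E hE
  exact sub_eq_zero.1 h2

/-- uniqueness -/
theorem cf_eq {k : ℤ} {a : Y.A k} {f : Fin r → (ℕ →₀ ℕ) → MvPolynomial (Fin n) ℤ_[p]}
    (hf : Hom p e k f) {γ : ∀ i, S.E (k - e i)} (hγ : Has (O := O) k γ f)
    (h : a = comb G k γ) (i : Fin r) (E : ℕ →₀ ℕ) : cf G k a i E = f i E :=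
  cf_eq_low G (c := dT p E + 1) hf hγ (fun E' _ => by rw [← h]) i E (by omega)

theorem cf_add (k : ℤ) (a b : Y.A k) (i : Fin r) (E : ℕ →₀ ℕ) :
    cf G k (a + b) i E = cf G k a i E + cf G k b i E := by
  obtain ⟨γ, hγ, ha⟩ := exists_cf G k a
  obtain ⟨δ, hδ, hb⟩ := exists_cf G k b
  refine cf_eq G ((cf_hom G k a).add (cf_hom G k b)) (γ := fun i => γ i + δ i)
    (fun i E => by rw [map_add (O.T _), LinearMap.add_apply, coeff_add, hγ, hδ, map_add]) ?_ i E
  rw [comb_add, ← ha, ← hb]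

/-- the coordinates as a homomorphism -/
noncomputable def cfh (k : ℤ) (i : Fin r) (E : ℕ →₀ ℕ) : Y.A k →+ MvPolynomial (Fin n) ℤ_[p] :=
  AddMonoidHom.mk' (fun a => cf G k a i E) fun a b => cf_add G k a b i E

theorem cf_zero (k : ℤ) (i : Fin r) (E : ℕ →₀ ℕ) : cf G k 0 i E = 0 := map_zero (cfh G k i E)

theorem cf_neg (k : ℤ) (a : Y.A k) (i : Fin r) (E : ℕ →₀ ℕ) : cf G k (-a) i E = -cf G k a i E :=
  map_neg (cfh G k i E) a

theorem cf_sub (k : ℤ) (a b : Y.A k) (i : Fin r) (E : ℕ →₀ ℕ) :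
    cf G k (a - b) i E = cf G k a i E - cf G k b i E := map_sub (cfh G k i E) a b

theorem cf_nsmul (k : ℤ) (N : ℕ) (a : Y.A k) (i : Fin r) (E : ℕ →₀ ℕ) :
    cf G k (N • a) i E = N • cf G k a i E := map_nsmul (cfh G k i E) N a

theorem cf_sum (k : ℤ) {ι : Type*} (A : Finset ι) (a : ι → Y.A k) (i : Fin r) (E : ℕ →₀ ℕ) :
    cf G k (∑ j ∈ A, a j) i E = ∑ j ∈ A, cf G k (a j) i E := map_sum (cfh G k i E) a A

/-- `a` is determined by its coordinates -/
theorem eq_of_cf {k : ℤ} {a b : Y.A k} (h : ∀ i E, cf G k a i E = cf G k b i E) : a = b := by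
  obtain ⟨γ, hγ, ha⟩ := exists_cf G k a
  refine ha.trans (cf_spec G (a := b) fun i E => ?_).symm
  rw [hγ, h]

/-- every homogeneous family is a family of coordinates -/
theorem exists_of_cf {k : ℤ} {f : Fin r → (ℕ →₀ ℕ) → MvPolynomial (Fin n) ℤ_[p]}
    (hf : Hom p e k f) : ∃ a : Y.A k, ∀ i E, cf G k a i E = f i E := by
  obtain ⟨γ, hγ⟩ := exists_has' (O := O) (X := X) hf
  exact ⟨comb G k γ, fun i E => cf_eq G hf hγ rfl i E⟩

end

end Vale.Agent.P221.H460
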