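import Vale.Agent.P221.H460.C1

/-!
# P221 (helper460): the slope filtration

* `slope p n e` : the filtration `⌊e / |v_n|⌋` of a generator of degree `e`;
* `exists_decomp` : `h = u + ∑_{j > n} v_j h_j` with `u ∈ ℤ_p[v_1, …, v_n]`;
* `split` : `∑ g_i γ_i = ∑ g_i δ_i + ∑ g_i ρ_i`, the coordinates of `δ_i` in `ℤ_p[v_1, …, v_n]`,
  `ρ_i` of filtration one more.
-/

open MvPolynomial

set_option linter.unusedSectionVars false

namespace Vale.Agent.P221.H460

open Vale.Agent.P221.T Vale.Agent.P221.T.H746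

variable {p : ℕ} [hp : Fact p.Prime] {n : ℕ}

/-! ### degrees -/

/-- the filtration of a generator of degree `e` -/
def slope (p n : ℕ) (e : ℤ) : ℤ := if n = 0 then e else e / sV p n

theorem natCast_le_sV (m : ℕ) : (m : ℤ) ≤ sV p m := by
  unfold sV
  have h1 : m < p ^ m := Nat.lt_pow_self hp.out.one_lt
  have h2 : ((m : ℤ)) < (p : ℤ) ^ m := by exact_mod_cast h1
  omega

theorem sV_mono {i j : ℕ} (h : i ≤ j) : sV p i ≤ sV p j := by
  rcases h.lt_or_eq with h | h
  · exact (sV_lt p h).le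
  · rw [h]

theorem two_mul_sV (n : ℕ) : 2 * sV p n ≤ sV p (n + 1) := by
  unfold sV
  have h1 : (2 : ℤ) ≤ p := by exact_mod_cast hp.out.two_le
  have h2 : (0 : ℤ) < (p : ℤ) ^ n := by
    have := hp.out.pos
    positivity
  rw [pow_succ]
  nlinarith

theorem weight_le {E : Fin n →₀ ℕ} :
    Finsupp.weight (fun i : Fin n => sV p (i + 1)) E ≤ sV p n * E.degree := by
  induction E using Finsupp.induction_linear with
  | zero => rw [map_zero, map_zero]; simp
  | add E E' h h' =>
    rw [map_add, map_add]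
    push_cast
    linarith
  | single i m =>
    rw [Finsupp.weight_single, Finsupp.degree_single, nsmul_eq_mul, mul_comm]
    exact mul_le_mul_of_nonneg_right (sV_mono (by omega)) (by positivity)

/-- the degree count -/
theorem mem_Ip_slope {j : ℕ} (hj : n ≤ j) {a b D : ℤ} {f : MvPolynomial (Fin n) ℤ_[p]}
    (hf : HK p D (RN p n f)) (hD : a - b + sV p (j + 1) ≤ D) :
    RN p n f ∈ Ip p (slope p n a + 2 - slope p n b) := by
  rw [mem_Ip_RN_iff]
  intro E
  by_cases h : coeff E f = 0
  · rw [h]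
    exact dvd_zero _
  · have h1 : Finsupp.weight (fun i : Fin n => sV p (i + 1)) E = D := (HK_RN_iff p).1 hf h
    have h2 : (slope p n a + 2 - slope p n b).toNat - E.degree = 0 := by
      have h3 := sV_mono (p := p) (show n + 1 ≤ j + 1 by omega)
      rcases Nat.eq_zero_or_pos n with hn | hn
      · subst hn
        have h4 : E = 0 := Subsingleton.elim _ _
        rw [h4, map_zero] at h1
        have h5 := natCast_le_sV (p := p) 1
        have h6 : 2 ≤ sV p 1 := by
          unfold sV
          have h7 : (2 : ℤ) ≤ p := by exact_mod_cast hp.out.two_le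
          rw [pow_one]
          omega
        simp only [slope, if_pos]
        rw [zero_add] at h3
        omega
      · have hn' : n ≠ 0 := by omega
        simp only [slope, if_neg hn']
        have h4 := weight_le (p := p) (E := E)
        rw [h1] at h4
        obtain ⟨m, rfl⟩ : ∃ m, n = m + 1 := ⟨n - 1, by omega⟩
        have h5 := sV_pos p m
        have h6 := two_mul_sV (p := p) (m + 1)
        set w := sV p (m + 1) with hw
        have h7 : w * (a / w) ≤ a := Int.mul_ediv_self_le h5.ne'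
        have h8 : b < w * (b / w) + w := Int.lt_mul_ediv_self_add h5
        by_contra hne
        have h9 : (E.degree : ℤ) + 1 ≤ a / w + 2 - b / w := by omega
        have h10 : w * ((E.degree : ℤ) + 1) ≤ w * (a / w + 2 - b / w) :=
          mul_le_mul_of_nonneg_left h9 h5.le
        nlinarith
    rw [h2, pow_zero]
    exact one_dvd _

/-! ### decomposition -/

section decomp

variable {ld : Lead p n}

/-- monomials in `v_1, …, v_n` -/
def Small (n : ℕ) (E : ℕ →₀ ℕ) : Prop := ∀ i ∈ E.support, i < n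

/-- the highest index -/
def mx (E : ℕ →₀ ℕ) : ℕ := E.support.sup id

theorem mx_spec {E : ℕ →₀ ℕ} (h : ¬ Small n E) : n ≤ mx E ∧ 1 ≤ E (mx E) := by
  unfold Small at h
  push Not at h
  obtain ⟨i, hi, hin⟩ := h
  have h1 : i ≤ mx E := Finset.le_sup (f := id) hi
  refine ⟨by omega, ?_⟩
  obtain ⟨j, hj, hj'⟩ := Finset.exists_mem_eq_sup E.support ⟨i, hi⟩ id
  have h2 : mx E = j := hj'
  rw [h2]
  exact Nat.one_le_iff_ne_zero.2 (Finsupp.mem_support_iff.1 hj)

theorem monomial_mem_Ip {t : ℤ} {E : ℕ →₀ ℕ} {c : ℤ_[p]}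
    (h : (p : ℤ_[p]) ^ (t.toNat - E.degree) ∣ c) : (monomial E c : KK p) ∈ Ip p t := by
  classical
  rw [mem_Ip_iff]
  intro E'
  rw [coeff_monomial]
  split_ifs with h1
  · rw [← h1]
    exact h
  · exact dvd_zero _

theorem HK_monomial {D : ℤ} {E : ℕ →₀ ℕ} (c : ℤ_[p])
    (h : Finsupp.weight (fun i => sV p (i + 1)) E = D) : HK p D (monomial E c : KK p) :=
  isWeightedHomogeneous_monomial _ _ _ h

/-- small monomials come from `ℤ_p[v_1, …, v_n]` -/
theorem exists_RN_monomial {E : ℕ →₀ ℕ} (h : Small n E) (c : ℤ_[p]) :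
    ∃ f : MvPolynomial (Fin n) ℤ_[p], RN p n f = monomial E c := by
  refine exists_rename_eq_of_vars_subset_range (monomial E c : KK p) _ Fin.val_injective ?_
  intro i hi
  by_cases hc : c = 0
  · rw [hc, monomial_zero, vars_0] at hi
    exact absurd hi (Finset.notMem_empty _)
  · rw [vars_monomial hc] at hi
    exact ⟨⟨i, h i hi⟩, rfl⟩

open Classical in
/-- **decomposition** -/
theorem exists_decomp (ld : Lead p n) {D t : ℤ} {h : KK p} (hD : HK p D h) (ht : h ∈ Ip p t) :
    ∃ (u : MvPolynomial (Fin n) ℤ_[p]) (q : ℕ → KK p), HK p D (RN p n u) ∧ RN p n u ∈ Ip p t ∧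
      ld.L t (RN p n u) = ld.L t h ∧ (∀ j, HK p (D - sV p (j + 1)) (q j)) ∧
      (∀ j, q j ∈ Ip p (t - 1)) ∧
      ∀ J : ℕ, D < sV p (J + 1) → h = RN p n u + ∑ j ∈ Finset.Ico n J, X j * q j := by
  choose f hf using fun (E : ℕ →₀ ℕ) (hE : Small n E) => exists_RN_monomial hE (coeff E h)
  let u : MvPolynomial (Fin n) ℤ_[p] :=
    ∑ E ∈ h.support, if hE : Small n E then f E hE else 0
  have hu : RN p n u = ∑ E ∈ h.support, if Small n E then monomial E (coeff E h) else 0 := by
    rw [map_sum]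
    refine Finset.sum_congr rfl fun E _ => ?_
    by_cases hE : Small n E
    · rw [dif_pos hE, if_pos hE]
      exact hf E hE
    · rw [dif_neg hE, if_neg hE, map_zero]
  let q : ℕ → KK p := fun j => ∑ E ∈ h.support, if ¬ Small n E ∧ mx E = j then
    monomial (E - Finsupp.single j 1) (coeff E h) else 0
  have hw : ∀ E ∈ h.support, Finsupp.weight (fun i => sV p (i + 1)) E = D := fun E hE =>
    hD (mem_support_iff.1 hE)
  -- facts on big monomials
  have hbig : ∀ E : ℕ →₀ ℕ, ¬ Small n E → E - Finsupp.single (mx E) 1 + Finsupp.single (mx E) 1 = E :=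
    fun E hE => by
      rw [tsub_add_cancel_of_le]
      rw [Finsupp.single_le_iff]
      exact (mx_spec hE).2
  have hwt : ∀ E ∈ h.support, ¬ Small n E →
      Finsupp.weight (fun i => sV p (i + 1)) (E - Finsupp.single (mx E) 1) =
        D - sV p (mx E + 1) := by
    intro E hE hS
    have h1 := hw E hE
    rw [← hbig E hS, map_add, Finsupp.weight_single, one_smul] at h1
    rw [← h1]
    have h2 : mx E = mx (E - Finsupp.single (mx E) 1 + Finsupp.single (mx E) 1) := by
      rw [hbig E hS]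
    omega
  have hq : ∀ j, q j ∈ Ip p (t - 1) := by
    intro j
    refine Ideal.sum_mem _ fun E hE => ?_
    split_ifs with h1
    · obtain ⟨hS, rfl⟩ := h1
      apply monomial_mem_Ip
      refine (pow_dvd_pow _ ?_).trans ((mem_Ip_iff p).1 ht E)
      have h2 := hbig E hS
      have h3 : (E - Finsupp.single (mx E) 1).degree + 1 = E.degree := by
        conv_rhs => rw [← h2]
        rw [map_add, Finsupp.degree_single]
      omega
    · exact Ideal.zero_mem _
  have hqL : ∀ j, n ≤ j → X j * q j ∈ Ip p t ∧ ld.L t (X j * q j) = 0 := by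
    intro j hj
    have h1 : (X j : KK p) ∈ Ip p 1 := by
      rw [Ip_one]
      exact X_mem_II p j
    have h2 := Ip_mul p h1 (hq j)
    have e1 : 1 + (t - 1) = t := by ring
    rw [e1] at h2
    refine ⟨h2, ?_⟩
    have h3 := lead_mul ld h1 (hq j)
    rw [e1, ld.v_ge j hj, zero_mul] at h3
    exact h3
  have hsum : ∀ J : ℕ, D < sV p (J + 1) → h = RN p n u + ∑ j ∈ Finset.Ico n J, X j * q j := by
    intro J hJ
    have h1 : ∑ j ∈ Finset.Ico n J, X j * q j =
        ∑ E ∈ h.support, if Small n E then 0 else monomial E (coeff E h) := by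
      simp only [q, Finset.mul_sum]
      rw [Finset.sum_comm]
      refine Finset.sum_congr rfl fun E hE => ?_
      by_cases hS : Small n E
      · rw [if_pos hS]
        refine Finset.sum_eq_zero fun j _ => ?_
        rw [if_neg (fun h => h.1 hS), mul_zero]
      · rw [if_neg hS, Finset.sum_eq_single (mx E)]
        · rw [if_pos ⟨hS, rfl⟩]
          have h4 : (X (mx E) : KK p) = monomial (Finsupp.single (mx E) 1) 1 := rfl
          rw [h4, monomial_mul, _root_.one_mul, add_comm, hbig E hS]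
        · intro j _ hj
          rw [if_neg (fun h => hj h.2.symm), mul_zero]
        · intro hn
          exfalso
          apply hn
          rw [Finset.mem_Ico]
          refine ⟨(mx_spec hS).1, ?_⟩
          by_contra hlt
          have h5 := sV_mono (p := p) (show J + 1 ≤ mx E + 1 by omega)
          have h6 := hwt E hE hS
          have h7 : 0 ≤ Finsupp.weight (fun i => sV p (i + 1)) (E - Finsupp.single (mx E) 1) := by
            rw [Finsupp.weight_apply]
            exact Finsupp.sum_nonneg fun j _ => smul_nonneg (Nat.zero_le _) (sV_nonneg p _)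
          omega
    rw [h1, hu, ← Finset.sum_add_distrib]
    conv_lhs => rw [h.as_sum]
    refine Finset.sum_congr rfl fun E _ => ?_
    split_ifs
    · rw [add_zero]
    · rw [zero_add]
  have huI : RN p n u ∈ Ip p t := by
    rw [hu]
    refine Ideal.sum_mem _ fun E _ => ?_
    split_ifs
    · exact monomial_mem_Ip ((mem_Ip_iff p).1 ht E)
    · exact Ideal.zero_mem _
  refine ⟨u, q, ?_, huI, ?_, ?_, hq, hsum⟩
  · rw [hu]
    refine (weightedHomogeneousSubmodule ℤ_[p] (fun i : ℕ => sV p (i + 1)) D).sum_mem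
      fun E hE => ?_
    split_ifs
    · exact HK_monomial _ (hw E hE)
    · exact Submodule.zero_mem _
  · have h1 : D < sV p (D.toNat + 1) := by
      have := natCast_le_sV (p := p) (D.toNat + 1)
      push_cast at this
      omega
    have h2 := hsum D.toNat h1
    conv_rhs => rw [h2]
    rw [ld.add huI (Ideal.sum_mem _ fun j hj => (hqL j (Finset.mem_Ico.1 hj).1).1),
      lead_sum ld _ _ fun j hj => (hqL j (Finset.mem_Ico.1 hj).1).1,
      Finset.sum_eq_zero fun j hj => (hqL j (Finset.mem_Ico.1 hj).1).2, add_zero]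
  · intro j
    refine (weightedHomogeneousSubmodule ℤ_[p] (fun i : ℕ => sV p (i + 1)) _).sum_mem
      fun E hE => ?_
    split_ifs with h1
    · obtain ⟨hS, rfl⟩ := h1
      exact HK_monomial _ (hwt E hE hS)
    · exact Submodule.zero_mem _

end decomp

/-! ### composition and filtration -/

section

variable {ld : Lead p n} {S : Src p n} {O : OpAlg ld S}

theorem F_comp {m m' l t s : ℤ} {γ : S.E m} {δ : S.E m'} {ε : S.E l}
    (h : O.T l ε = O.T m γ ∘ₗ O.T m' δ) (hγ : γ ∈ S.F t m) (hδ : δ ∈ S.F s m') :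
    ε ∈ S.F (t + s) l := by
  rw [O.F_iff] at hγ hδ ⊢
  intro E E'
  rw [h, LinearMap.comp_apply]
  set G := O.T m' δ (monomial E 1) with hG
  have h1 : G = ∑ E'' ∈ G.support, coeff E'' G • monomial E'' 1 := by
    conv_lhs => rw [G.as_sum]
    refine Finset.sum_congr rfl fun E'' _ => ?_
    rw [smul_monomial, smul_eq_mul, _root_.mul_one]
  rw [h1, map_sum, coeff_sum]
  refine Ideal.sum_mem _ fun E'' _ => ?_
  rw [map_smul, coeff_smul, smul_eq_mul, mul_comm]
  exact Ip_mul p (hγ _ _) (hδ _ _)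

variable {Y : Sys S} {M : Type} [AddCommGroup M] [Module (KK p) M] {Z : Ev O Y M} {X : OpX O}
  {r : ℕ} {e : Fin r → ℤ} (G : Gens Z X r e)

/-- the bound for the indices -/
noncomputable def JJb (e : Fin r → ℤ) (K : ℤ) (E : ℕ →₀ ℕ) : ℕ :=
  ∑ i, (K - e i).natAbs + (dT p E).toNat

theorem lt_JJb (e : Fin r → ℤ) (K : ℤ) (E : ℕ →₀ ℕ) (i : Fin r) :
    K - e i + dT p E < sV p (JJb (p := p) e K E + 1) := by
  have h1 := natCast_le_sV (p := p) (JJb (p := p) e K E + 1)
  have h2 : (K - e i).natAbs ≤ ∑ i, (K - e i).natAbs :=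
    Finset.single_le_sum (f := fun i => (K - e i).natAbs) (fun _ _ => Nat.zero_le _)
      (Finset.mem_univ i)
  have h3 : (K - e i).natAbs + (dT p E).toNat ≤ JJb (p := p) e K E := by
    unfold JJb
    omega
  have h4 := dT_nonneg (p := p) E
  have h5 : ((JJb (p := p) e K E + 1 : ℕ) : ℤ) = (JJb (p := p) e K E : ℤ) + 1 := by push_cast; rfl
  rw [h5] at h1
  omega

include G in
/-- **splitting** -/
theorem split {K s : ℤ} (γ : ∀ i, S.E (K - e i))
    (hγ : ∀ i, γ i ∈ S.F (s - slope p n (e i)) _) :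
    ∃ (u : Fin r → (ℕ →₀ ℕ) → MvPolynomial (Fin n) ℤ_[p]) (ρ : ∀ i, S.E (K - e i)),
      Hom p e K u ∧ (∀ i E, RN p n (u i E) ∈ Ip p (s - slope p n (e i))) ∧
      (∀ i E, ld.L (s - slope p n (e i)) (RN p n (u i E)) =
        ld.L (s - slope p n (e i)) (coeff 0 (O.T _ (γ i) (monomial E 1)))) ∧
      (∀ i, ρ i ∈ S.F (s + 1 - slope p n (e i)) _) ∧
      ∀ δ : ∀ i, S.E (K - e i), Has (O := O) K δ u → comb G K γ = comb G K δ + comb G K ρ := by
  classical
  -- the decomposition of the coordinates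
  choose u q hu1 hu2 hu3 hq1 hq2 hq3 using fun (i : Fin r) (E : ℕ →₀ ℕ) =>
    exists_decomp ld (HK_coord (O := O) (γ i) E) (O.T_mem _ _ (γ i) (hγ i) E 0)
  choose δ hδ1 hδ2 using fun (i : Fin r) (j : ℕ) =>
    X.ex (K - e i - sV p (j + 1)) (s - slope p n (e i) - 1) (fun E => q i E j)
      (fun E => HK_cast (by ring) (hq1 i E j)) (fun E => hq2 i E j)
  choose μ hμ using fun j : ℕ => X.mult (sV p (j + 1)) (MvPolynomial.X j) (HK_X j)
  -- the coordinates of `g_i v_j`
  choose φ hφ1 hφ2 using fun (i : Fin r) (j : ℕ) =>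
    exists_cf G (e i + sV p (j + 1)) (Y.act rfl (G.g i) (μ j))
  have hφ3 : ∀ (i : Fin r) (j : ℕ), n ≤ j → ∀ k : Fin r,
      φ i j k ∈ S.F (slope p n (e i) + 2 - slope p n (e k)) _ := by
    intro i j hj k
    refine mem_F_of_coord X fun E => ?_
    rw [hφ1 i j k E]
    refine mem_Ip_slope hj (cf_hom G _ _ k E) ?_
    have := dT_nonneg (p := p) E
    linarith
  choose ε hε using fun (i : Fin r) (j : ℕ) (k : Fin r) =>
    X.comp (show (e i + sV p (j + 1) - e k) + (K - e i - sV p (j + 1)) = K - e k by ring)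
      (φ i j k) (δ i j)
  have hε2 : ∀ (i : Fin r) (j : ℕ), n ≤ j → ∀ k : Fin r,
      ε i j k ∈ S.F (s + 1 - slope p n (e k)) _ := by
    intro i j hj k
    have h1 := F_comp (hε i j k) (hφ3 i j hj k) (hδ1 i j)
    have e1 : slope p n (e i) + 2 - slope p n (e k) + (s - slope p n (e i) - 1) =
      s + 1 - slope p n (e k) := by ring
    rwa [e1] at h1
  -- vanishing
  have hδ0 : ∀ (i : Fin r) (j : ℕ) (E : ℕ →₀ ℕ), JJb (p := p) e K E ≤ j →
      O.T _ (δ i j) (monomial E 1) = 0 := by
    intro i j E hj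
    refine (X.low _ (dT p E + 1) (δ i j) fun E' hE' => ?_).1 E (by omega)
    rw [hδ2]
    refine HK_neg_eq_zero ?_ (hq1 i E' j)
    have h1 := lt_JJb (p := p) e K E i
    have h2 := sV_mono (p := p) (show JJb (p := p) e K E + 1 ≤ j + 1 by omega)
    omega
  have hJm : ∀ E E' : ℕ →₀ ℕ, dT p E' ≤ dT p E → JJb (p := p) e K E' ≤ JJb (p := p) e K E := by
    intro E E' h
    have h3 : JJb (p := p) e K E = ∑ i, (K - e i).natAbs + (dT p E).toNat := rfl
    have h4 : JJb (p := p) e K E' = ∑ i, (K - e i).natAbs + (dT p E').toNat := rfl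
    rw [h3, h4]
    have h5 : (dT p E').toNat ≤ (dT p E).toNat := Int.toNat_le_toNat h
    omega
  -- the remainder
  have hρ : ∀ k : Fin r, ∃ ρ : S.E (K - e k), ρ ∈ S.F (s + 1 - slope p n (e k)) _ ∧
      ∀ E, coeff 0 (O.T _ ρ (monomial E 1)) = ∑ i, ∑ j ∈ Finset.Ico n (JJb (p := p) e K E),
        coeff 0 (O.T _ (ε i j k) (monomial E 1)) := by
    intro k
    refine X.ex _ _ _ (fun E => ?_) fun E => ?_
    · refine (weightedHomogeneousSubmodule ℤ_[p] (fun i : ℕ => sV p (i + 1)) _).sum_mem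
        fun i _ => ?_
      refine (weightedHomogeneousSubmodule ℤ_[p] (fun i : ℕ => sV p (i + 1)) _).sum_mem
        fun j _ => ?_
      exact HK_coord (O := O) (ε i j k) E
    · refine Ideal.sum_mem _ fun i _ => Ideal.sum_mem _ fun j hj => ?_
      exact O.T_mem _ _ _ (hε2 i j (Finset.mem_Ico.1 hj).1 k) E 0
  choose ρ hρ1 hρ2 using hρ
  refine ⟨u, ρ, hu1, hu2, hu3, hρ1, fun δu hδu => ?_⟩
  apply Z.inj K
  refine monoExt fun E => ?_
  set J := JJb (p := p) e K E with hJ
  -- (1)
  have k1 : ∀ i, O.T _ (γ i) (monomial E 1) = O.T _ (δu i) (monomial E 1) +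
      ∑ j ∈ Finset.Ico n J, X.eta (MvPolynomial.X j) * O.T _ (δ i j) (monomial E 1) := by
    intro i
    choose ν hν using fun j : ℕ =>
      X.comp (show sV p (j + 1) + (K - e i - sV p (j + 1)) = K - e i by ring) (μ j) (δ i j)
    have h1 := T_eq_of_low X (c := dT p E + 1) (γ := γ i)
      (γ' := δu i + ∑ j ∈ Finset.Ico n J, ν j) (fun E' hE' => by
        have h2 := hq3 i E' J (by
          have h3 := lt_JJb (p := p) e K E i
          rw [← hJ] at h3
          omega)
        rw [h2, map_add (O.T _), LinearMap.add_apply, coeff_add, hδu, map_sum,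
          LinearMap.sum_apply, coeff_sum]
        congr 1
        refine Finset.sum_congr rfl fun j _ => ?_
        rw [hν, LinearMap.comp_apply, hμ]
        have h3 : ∀ f g : GG p, coeff 0 (f * g) = coeff 0 f * coeff 0 g := fun f g => by
          rw [← constantCoeff_eq, map_mul]
        rw [h3, X.eta_zero, hδ2]) E (by omega)
    rw [h1, map_add (O.T _), LinearMap.add_apply, map_sum, LinearMap.sum_apply]
    congr 1
    refine Finset.sum_congr rfl fun j _ => ?_
    rw [hν, LinearMap.comp_apply, hμ]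
  -- (2)
  have k2 : ∀ (i : Fin r) (j : ℕ) (z : GG p), Z.c (e i) (G.g i) (X.eta (MvPolynomial.X j) * z) =
      ∑ k, Z.c (e k) (G.g k) (O.T _ (φ i j k) z) := by
    intro i j z
    rw [← c_comb, ← hφ2 i j, Z.act, LinearMap.comp_apply, hμ]
  -- (3)
  have k3 : ∀ k, O.T _ (ρ k) (monomial E 1) =
      ∑ i, ∑ j ∈ Finset.Ico n J, O.T _ (φ i j k) (O.T _ (δ i j) (monomial E 1)) := by
    intro k
    have h1 := T_eq_of_low X (c := dT p E + 1) (γ := ρ k)
      (γ' := ∑ i, ∑ j ∈ Finset.Ico n J, ε i j k) (fun E' hE' => by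
        rw [hρ2, map_sum, LinearMap.sum_apply, coeff_sum]
        refine Finset.sum_congr rfl fun i _ => ?_
        rw [map_sum, LinearMap.sum_apply, coeff_sum]
        have h2 := hJm E E' (by omega)
        refine Finset.sum_subset (Finset.Ico_subset_Ico_right h2) fun j hj hj' => ?_
        rw [Finset.mem_Ico] at hj hj'
        rw [hε, LinearMap.comp_apply, hδ0 i j E' (by omega), map_zero, coeff_zero])
      E (by omega)
    rw [h1, map_sum, LinearMap.sum_apply]
    refine Finset.sum_congr rfl fun i _ => ?_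
    rw [map_sum, LinearMap.sum_apply]
    refine Finset.sum_congr rfl fun j _ => ?_
    rw [hε, LinearMap.comp_apply]
  rw [map_add (Z.c K), LinearMap.add_apply, c_comb, c_comb, c_comb]
  have k4 : ∀ i, Z.c (e i) (G.g i) (O.T _ (γ i) (monomial E 1)) =
      Z.c (e i) (G.g i) (O.T _ (δu i) (monomial E 1)) + ∑ j ∈ Finset.Ico n J, ∑ k,
        Z.c (e k) (G.g k) (O.T _ (φ i j k) (O.T _ (δ i j) (monomial E 1))) := by
    intro i
    rw [k1, map_add, map_sum]
    congr 1
    exact Finset.sum_congr rfl fun j _ => k2 i j _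
  rw [Finset.sum_congr rfl fun i _ => k4 i, Finset.sum_add_distrib]
  congr 1
  have k5 : ∀ k, Z.c (e k) (G.g k) (O.T _ (ρ k) (monomial E 1)) = ∑ i, ∑ j ∈ Finset.Ico n J,
      Z.c (e k) (G.g k) (O.T _ (φ i j k) (O.T _ (δ i j) (monomial E 1))) := by
    intro k
    rw [k3, map_sum]
    refine Finset.sum_congr rfl fun i _ => ?_
    rw [map_sum]
  refine Eq.trans ?_ (Finset.sum_congr rfl fun k _ => k5 k).symm
  rw [Finset.sum_comm (s := Finset.univ) (t := Finset.univ)]
  refine Finset.sum_congr rfl fun i _ => ?_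
  rw [Finset.sum_comm]

end

end Vale.Agent.P221.H460
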