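import Vale.Agent.P221.Loc.Int
import Vale.Agent.P221.E.H903.F

/-!
# P221 (helper460): the local-to-global theorem, for an arbitrary class of spectra in `Thick B`
-/

open CategoryTheory MonoidalCategory MonObj Limits Pretriangulated

set_option linter.unusedSectionVars false

noncomputable section

namespace Vale.Agent.P221.H460

open Vale.Agent.P251 Vale.Agent.P251.S Vale.Agent.P251.T Vale.Agent.P251.M Vale.Agent.P251.F
  Vale.Agent.P251.I EvenSpheres Vale.Agent.P257.H702 Vale.Agent.P257.H80 Vale.Agent.P251.Q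
  Vale.Agent.P251.St Vale.Agent.P251.St.SHCat Vale.Agent.P257.St
  Vale.Agent.P221.H746 Vale.Agent.P093.N0 Vale.Agent.P221.Loc

variable {T : SHCat} {S : Susp T} {p n : ℕ}

/-- **the local-to-global theorem**: `X` is in `Thick B` if it agrees in high degrees with an object
of the thick subcategory generated by objects which agree in high degrees with objects of
`Thick B` -/
theorem thick_of_gen (hp : p.Prime) {B X M : T.C} {f : X ⟶ M}
    (hB : StI.IsStandardForm S p n B) (hX : StI.IsFpType S p n X) (hf : StI.EvIso f)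
    {Q : T.C → Prop} (hQ : ∀ Y, Q Y → St.Thick B Y)
    (hM : StI.ThickOf (fun P : T.C => ∃ (Y : T.C) (c : Hom Y P), StI.EvIso c ∧ Q Y) M) :
    StI.ThickOf (fun Y : T.C => Y = B) X := by
  have : Fact p.Prime := ⟨hp⟩
  obtain ⟨D, hD, hA, ⟨U⟩⟩ := H924.exists_mu S.toSpaceFunctor (P251.M.lineIso S.toSpaceFunctor)
  have hB' : St.IsForm S p n B :=
    H924.isForm_of_isStandardForm hD hA U (isStandardForm_iff.1 (isStandardFormI_iff.1 hB))
  obtain ⟨C, i, δ, hC⟩ := H746.exists_moore (𝒯 := T.C) (p : ℤ)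
  have h0 : Conn (0 : ℤ) (𝟙_ T.C) := D.conn_unit
  have hX' := isFpTypeI_of hX
  have hT : ∀ X : T.C, St.IsBPFinite S p n X → St.Thick B X := fun X hX =>
    H509.thick_of_isBPFinite hB' hX
  have hcov : ∀ (k : ℤ) {Y Z : T.C} (c : Y ⟶ Z), IsCov k c → Good p C Z → Good p C Y :=
    fun k _ _ c hc h => hc.good hC D.conn_unit h
  have hsing : ∀ (k : ℤ) (E : T.C), BigCell T.C k E →
      (∀ j, k < j → ∀ x : (𝟙_ T.C)⟦j⟧ ⟶ E, x = 0) → Nonempty (ModStr D.R E) :=
    fun k E h1 h2 => modStr_of_single D h1 h2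
  have htf : ∀ {P : RingSp T} (φ : P257.St.GHom S p P) (m : ℕ) (W V : T.C), Good p C W →
      (∃ k : ℤ, ∀ j, k ≤ j → ∀ x : (𝟙_ T.C)⟦j⟧ ⟶ W, x = 0) → St.IsGenMoore φ m V →
        St.TotallyFinite (ten W V) := fun φ m W V h1 h2 h3 => totallyFinite_of_good hC h1 h2 h3
  have hCT := covThick (C := C) (B := B) hp hD U hT hcov hsing htf hX'
  have hM' : EvG (fun Z : T.C => Good p C Z ∧ St.Thick B Z) M := by
    clear hf f
    induction hM with
    | base h =>
      obtain ⟨Y, c, ⟨K, hK⟩, hY⟩ := h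
      have h6 : St.Thick B Y := hQ Y hY
      exact ⟨Y, c, K, ⟨good_of_thick (good_of_isForm hC hB') h6, h6⟩, hK⟩
    | zero h => exact EvG.of (hCT.zero ((IsZero.iff_id_eq_zero _).2 h))
    | susp k _ ih => exact ih.shift hCT k
    | cof hd _ _ ih₁ ih₂ => exact EvG.cof hCT h0 hd ih₁ ih₂
    | retract i r hir _ ih => exact EvG.retract hCT h0 i r hir ih
  obtain ⟨k₀, hk₀⟩ := hM'.exists_cov hCT h0
  obtain ⟨K, hK⟩ := hf
  have hK' : BijGe K f := hK
  obtain ⟨X', d, hd⟩ := exists_cov (max K k₀) X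
  have h2 := hk₀ _ (le_max_right K k₀) (hd.comp_bijGe (hK'.mono (le_max_left K k₀)))
  exact thickI_of_thick (thick_of_cov h0 hcov (thick_single hp hD U hT hsing htf hX') hd
    (good_of_fpType hp hC hX') h2.2)

theorem evIso_ident (X : T.C) : StI.EvIso (ident X) := by
  refine ⟨0, fun k _ => ?_⟩
  have h : (fun x : StI.Pi k X => comp x (ident X)) = id := by
    funext x
    exact Category.comp_id _
  rw [h]
  exact Function.bijective_id

end Vale.Agent.P221.H460
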