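import Vale.Agent.P221.H460.C1

/-!
# P221 (helper460): regular even systems (frozen interface between parts B and C)

* `Nm Z X m k` : the subgroup `N_m = ∑_{a < m} ev (A · v_a)` of `π_k X`;
* `Reg Z X` : `v_m` acts injectively on `π_* X / N_m`, `m ≤ n`, and `π_* X / N_{n+1}` is finite.
-/

open MvPolynomial

set_option linter.unusedSectionVars false

namespace Vale.Agent.P221.H460

open Vale.Agent.P221.T Vale.Agent.P221.T.H746

variable {p : ℕ} [hp : Fact p.Prime] {n : ℕ} {ld : Lead p n} {S : Src p n} {O : OpAlg ld S}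
  {Y : Sys S} {M : Type} [AddCommGroup M] [Module (KK p) M]

/-- `N_m = ∑_{a < m} ev (A · v_a)` -/
def Nm (Z : Ev O Y M) (X : OpX O) (m : ℕ) (k : ℤ) : AddSubgroup (Y.Pi k) where
  carrier := {x | ∃ b : ∀ a : Fin m, Y.A (k - sV p a),
    Z.e k x = ∑ a : Fin m, Z.c _ (b a) (X.eta (vK p a))}
  add_mem' := by
    rintro x y ⟨b, hb⟩ ⟨b', hb'⟩
    refine ⟨fun a => b a + b' a, ?_⟩
    rw [map_add, hb, hb', ← Finset.sum_add_distrib]
    refine Finset.sum_congr rfl fun a _ => ?_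
    rw [map_add (Z.c _), LinearMap.add_apply]
  zero_mem' := ⟨fun _ => 0, by
    rw [map_zero]
    refine (Finset.sum_eq_zero fun a _ => ?_).symm
    rw [map_zero (Z.c _), LinearMap.zero_apply]⟩
  neg_mem' := by
    rintro x ⟨b, hb⟩
    refine ⟨fun a => -b a, ?_⟩
    rw [map_neg, hb, ← Finset.sum_neg_distrib]
    refine Finset.sum_congr rfl fun a _ => ?_
    rw [map_neg (Z.c _), LinearMap.neg_apply]

/-- `π_* X` is regular and finite modulo `p, v_1, …, v_n` -/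
structure Reg (Z : Ev O Y M) (X : OpX O) : Prop where
  /-- restriction along the unit is onto -/
  surj : ∀ k, Function.Surjective (Y.ev k)
  /-- multiplication by `v_m` is well defined on `π_* X / N_m` -/
  wd : ∀ m ≤ n, ∀ (k : ℤ) (a : Y.A (k - sV p m)), Y.ev _ a = 0 →
    ∃ x ∈ Nm Z X m k, Z.e k x = Z.c _ a (X.eta (vK p m))
  /-- multiplication by `v_m` is injective on `π_* X / N_m` -/
  inj : ∀ m ≤ n, ∀ (k : ℤ) (a : Y.A (k - sV p m)), ∀ x ∈ Nm Z X m k,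
    Z.e k x = Z.c _ a (X.eta (vK p m)) → Y.ev _ a ∈ Nm Z X m (k - sV p m)
  /-- bounded below -/
  bdd : ∃ m₀ : ℤ, ∀ k < m₀, ∀ x : Y.Pi k, x = 0
  /-- `π_* X / N_{n+1}` is finite -/
  fin : ∀ k, Finite (Y.Pi k ⧸ Nm Z X (n + 1) k)
  fin' : ∃ m₁ : ℤ, ∀ k, m₁ < k → ∀ x : Y.Pi k, x ∈ Nm Z X (n + 1) k
  /-- `p`-completeness -/
  cpl : ∀ (k : ℤ) (z : ℕ → Y.Pi k), (∀ i, z i = p • z (i + 1)) → ∀ i, z i = 0

end Vale.Agent.P221.H460
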